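import Mathlib

set_option autoImplicit false

/-!
P042, seam (B): second moments of the truncated tilt `∑ D, ∏ i ∈ D, e i n` over an interval.
-/

namespace Vale.Agent.P042.H944

open Finset

/-- periodicity, iterated -/
theorem per_mul {p : ℕ} {f : ℤ → ℝ} (h : ∀ n, f (n + p) = f n) (n c : ℤ) :
    f (n + p * c) = f n := by
  have h1 : ∀ (c : ℕ) (n : ℤ), f (n + p * c) = f n := by
    intro c
    induction c with
    | zero => intro n; simp
    | succ k ih =>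
      intro n
      rw [← ih n, ← h (n + p * k)]
      congr 1
      push_cast
      ring
  obtain ⟨m, rfl | rfl⟩ := c.eq_nat_or_neg
  · exact h1 m n
  · rw [← h1 m (n + p * -(m : ℤ))]
    congr 1
    ring

theorem per_mod {p : ℕ} {f : ℤ → ℝ} (h : ∀ n, f (n + p) = f n) (x : ℕ) :
    f ((x % p : ℕ) : ℤ) = f (x : ℤ) := by
  rw [← per_mul h ((x % p : ℕ) : ℤ) ((x / p : ℕ) : ℤ)]
  congr 1
  exact_mod_cast Nat.mod_add_div x p

/-- Chinese remainder theorem for sums of products of periodic functions -/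
theorem crt_mul (a b : ℕ) (hab : Nat.Coprime a b) (ha : 1 ≤ a) (hb : 1 ≤ b) (φ ψ : ℤ → ℝ)
    (hφ : ∀ n, φ (n + a) = φ n) (hψ : ∀ n, ψ (n + b) = ψ n) :
    ∑ x ∈ range (a * b), φ x * ψ x = (∑ x ∈ range a, φ x) * ∑ x ∈ range b, ψ x := by
  rw [Finset.sum_mul_sum, ← Finset.sum_product']
  refine Finset.sum_bij' (fun x _ => (x % a, x % b))
    (fun uv _ => (Nat.chineseRemainder hab uv.1 uv.2 : ℕ)) ?_ ?_ ?_ ?_ ?_
  · intro x _
    rw [mem_product, mem_range, mem_range]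
    exact ⟨Nat.mod_lt _ ha, Nat.mod_lt _ hb⟩
  · intro uv _
    rw [mem_range]
    exact Nat.chineseRemainder_lt_mul hab _ _ (by omega) (by omega)
  · intro x hx
    rw [mem_range] at hx
    have h1 := Nat.chineseRemainder_modEq_unique hab (Nat.mod_modEq x a).symm
      (Nat.mod_modEq x b).symm
    exact (Nat.ModEq.eq_of_lt_of_lt h1 hx
      (Nat.chineseRemainder_lt_mul hab _ _ (by omega) (by omega))).symm
  · intro uv huv
    rw [mem_product, mem_range, mem_range] at huv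
    have h1 := (Nat.chineseRemainder hab uv.1 uv.2).2
    have h2 : (Nat.chineseRemainder hab uv.1 uv.2 : ℕ) % a = uv.1 := by
      rw [h1.1, Nat.mod_eq_of_lt huv.1]
    have h3 : (Nat.chineseRemainder hab uv.1 uv.2 : ℕ) % b = uv.2 := by
      rw [h1.2, Nat.mod_eq_of_lt huv.2]
    exact Prod.ext h2 h3
  · intro x _
    simp only [per_mod hφ, per_mod hψ]

/-- a periodic nonnegative function over an interval -/
theorem sum_Icc_per {q N' : ℕ} (hq : 1 ≤ q) (hqN : q ≤ N') {F : ℤ → ℝ} (hF : ∀ n, 0 ≤ F n)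
    (hper : ∀ n, F (n + q) = F n) :
    ∑ n ∈ Icc (1 : ℤ) N', F n ≤ 2 * N' / q * ∑ x ∈ range q, F (x : ℤ) := by
  have hs : ∀ k : ℕ, ∑ n ∈ range (q * k), F (n : ℤ) = k * ∑ x ∈ range q, F (x : ℤ) := by
    intro k
    induction k with
    | zero => simp
    | succ k ih =>
      rw [Nat.mul_succ, Finset.sum_range_add, ih]
      have h1 : ∀ x ∈ range q, F ((q * k + x : ℕ) : ℤ) = F (x : ℤ) := by
        intro x _
        rw [← per_mul hper (x : ℤ) (k : ℤ)]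
        congr 1
        push_cast
        ring
      rw [Finset.sum_congr rfl h1]
      push_cast
      ring
  have hlt : N' < q * (N' / q + 1) := Nat.lt_mul_div_succ N' hq
  have h1 : ∑ n ∈ Icc (1 : ℤ) N', F n ≤ ∑ n ∈ range (q * (N' / q + 1)), F (n : ℤ) := by
    have h2 : ∑ n ∈ range (q * (N' / q + 1)), F (n : ℤ) =
        ∑ n ∈ (range (q * (N' / q + 1))).map Nat.castEmbedding, F n := by
      rw [Finset.sum_map]
      rfl
    rw [h2]
    refine Finset.sum_le_sum_of_subset_of_nonneg ?_ fun n _ _ => hF n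
    intro n hn
    rw [Finset.mem_Icc] at hn
    rw [Finset.mem_map]
    refine ⟨n.toNat, ?_, ?_⟩
    · rw [mem_range]
      omega
    · simp only [Nat.castEmbedding_apply]
      omega
  rw [hs] at h1
  refine h1.trans ?_
  have hqr : (0 : ℝ) < q := by exact_mod_cast hq
  refine mul_le_mul_of_nonneg_right ?_ (Finset.sum_nonneg fun x _ => hF _)
  have h3 : ((N' / q : ℕ) : ℝ) ≤ (N' : ℝ) / q := Nat.cast_div_le
  have h4 : (1 : ℝ) ≤ (N' : ℝ) / q := by
    rw [le_div_iff₀ hqr, one_mul]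
    exact_mod_cast hqN
  push_cast
  have h5 : 2 * (N' : ℝ) / q = N' / q + N' / q := by ring
  rw [h5]
  linarith

section
variable {ι : Type*} {prm : ι → ℕ} {e : ι → ℤ → ℝ} {b : ι → ℝ}

theorem prod_per (hper : ∀ i n, e i (n + prm i) = e i n) (D : Finset ι) (n : ℤ) :
    ∏ i ∈ D, e i (n + (∏ i ∈ D, prm i : ℕ)) = ∏ i ∈ D, e i n := by
  refine Finset.prod_congr rfl fun i hi => ?_
  obtain ⟨c, hc⟩ := Finset.dvd_prod_of_mem prm hi
  rw [hc]
  push_cast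
  exact per_mul (hper i) n c

/-- independence over a full period -/
theorem sum_prod_sq (hp : ∀ i, (prm i).Prime) (hinj : Function.Injective prm)
    (hper : ∀ i n, e i (n + prm i) = e i n) (D : Finset ι) :
    ∑ x ∈ range (∏ i ∈ D, prm i), (∏ i ∈ D, e i (x : ℤ)) ^ 2 =
      ∏ i ∈ D, ∑ x ∈ range (prm i), e i (x : ℤ) ^ 2 := by
  classical
  induction D using Finset.induction_on with
  | empty => simp
  | insert i D hi ih =>
    rw [Finset.prod_insert hi, Finset.prod_insert hi, ← ih]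
    have hco : Nat.Coprime (prm i) (∏ j ∈ D, prm j) := by
      refine Nat.Coprime.prod_right fun j hj => ?_
      exact (Nat.coprime_primes (hp i) (hp j)).2 fun h => hi (hinj h ▸ hj)
    have hpos : 1 ≤ ∏ j ∈ D, prm j := Finset.prod_pos fun j _ => (hp j).pos
    rw [← crt_mul (prm i) (∏ j ∈ D, prm j) hco (hp i).one_lt.le hpos (fun n => e i n ^ 2)
      (fun n => (∏ j ∈ D, e j n) ^ 2) (fun n => by simp only [hper i n])
      (fun n => by simp only [prod_per hper D n])]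
    refine Finset.sum_congr rfl fun x _ => ?_
    rw [Finset.prod_insert hi, mul_pow]

/-- **second moment of one product of tilts** -/
theorem l2_tilt (prm : ι → ℕ) (hp : ∀ i, (prm i).Prime) (hinj : Function.Injective prm)
    (e : ι → ℤ → ℝ) (hper : ∀ i n, e i (n + prm i) = e i n) (b : ι → ℝ) (_hb : ∀ i, 0 ≤ b i)
    (he : ∀ i, ∑ x ∈ range (prm i), e i (x : ℤ) ^ 2 ≤ prm i * b i ^ 2) (D : Finset ι) (N' : ℕ)
    (hD : ∏ i ∈ D, prm i ≤ N') :
    ∑ n ∈ Icc (1 : ℤ) N', (∏ i ∈ D, e i n) ^ 2 ≤ 2 * N' * ∏ i ∈ D, b i ^ 2 := by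
  have hq : 1 ≤ ∏ i ∈ D, prm i := Finset.prod_pos fun i _ => (hp i).pos
  have h1 := sum_Icc_per hq hD (F := fun n => (∏ i ∈ D, e i n) ^ 2) (fun n => sq_nonneg _)
    (fun n => by simp only [prod_per hper D n])
  refine h1.trans ?_
  rw [sum_prod_sq hp hinj hper D]
  have h2 : ∏ i ∈ D, ∑ x ∈ range (prm i), e i (x : ℤ) ^ 2 ≤ ∏ i ∈ D, (prm i * b i ^ 2) :=
    Finset.prod_le_prod (fun i _ => Finset.sum_nonneg fun x _ => sq_nonneg _) fun i _ => he i
  have hqr : (0 : ℝ) < ((∏ i ∈ D, prm i : ℕ) : ℝ) := by exact_mod_cast hq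
  have h3 : (0 : ℝ) ≤ 2 * N' / ((∏ i ∈ D, prm i : ℕ) : ℝ) := by positivity
  refine (mul_le_mul_of_nonneg_left h2 h3).trans (le_of_eq ?_)
  rw [Finset.prod_mul_distrib]
  have h4 : ((∏ i ∈ D, prm i : ℕ) : ℝ) = ∏ i ∈ D, (prm i : ℝ) := by push_cast; rfl
  rw [← h4]
  field_simp

/-- **second moment of the truncated tilt** -/
theorem phi_l2 [Fintype ι] (prm : ι → ℕ) (hp : ∀ i, (prm i).Prime)
    (hinj : Function.Injective prm) (e : ι → ℤ → ℝ) (hper : ∀ i n, e i (n + prm i) = e i n)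
    (b : ι → ℝ) (hb : ∀ i, 0 ≤ b i)
    (he : ∀ i, ∑ x ∈ range (prm i), e i (x : ℤ) ^ 2 ≤ prm i * b i ^ 2) (m0 N' : ℕ)
    (hm0 : ∀ D : Finset ι, D.card ≤ m0 → ∏ i ∈ D, prm i ≤ N') :
    ∑ n ∈ Icc (1 : ℤ) N', (∑ D ∈ univ.filter (fun D : Finset ι => D.card ≤ m0),
      ∏ i ∈ D, e i n) ^ 2 ≤ 2 * N' * Real.exp (2 * ∑ i, b i) := by
  classical
  set S : Finset (Finset ι) := univ.filter (fun D : Finset ι => D.card ≤ m0) with hS
  have hmem : ∀ D ∈ S, D.card ≤ m0 := fun D hD => (mem_filter.1 hD).2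
  have hb' : ∀ D : Finset ι, 0 ≤ ∏ i ∈ D, b i := fun D => Finset.prod_nonneg fun i _ => hb i
  -- the cross terms
  have h1 : ∀ D ∈ S, ∀ D' ∈ S, ∑ n ∈ Icc (1 : ℤ) N', (∏ i ∈ D, e i n) * (∏ i ∈ D', e i n) ≤
      2 * N' * ((∏ i ∈ D, b i) * ∏ i ∈ D', b i) := by
    intro D hD D' hD'
    have hN : (0 : ℝ) ≤ 2 * N' := by positivity
    have h2 := l2_tilt prm hp hinj e hper b hb he D N' (hm0 D (hmem D hD))
    have h3 := l2_tilt prm hp hinj e hper b hb he D' N' (hm0 D' (hmem D' hD'))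
    rw [Finset.prod_pow] at h2 h3
    have h4 := Finset.sum_mul_sq_le_sq_mul_sq (Icc (1 : ℤ) N') (fun n => ∏ i ∈ D, e i n)
      (fun n => ∏ i ∈ D', e i n)
    have h5 : (∑ n ∈ Icc (1 : ℤ) N', (∏ i ∈ D, e i n) * (∏ i ∈ D', e i n)) ^ 2 ≤
        (2 * N' * ((∏ i ∈ D, b i) * ∏ i ∈ D', b i)) ^ 2 := by
      refine h4.trans ((mul_le_mul h2 h3 (Finset.sum_nonneg fun n _ => sq_nonneg _)
        (by positivity)).trans (le_of_eq ?_))
      ring
    exact le_of_sq_le_sq h5 (mul_nonneg hN (mul_nonneg (hb' D) (hb' D')))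
  have h2 : ∑ n ∈ Icc (1 : ℤ) N', (∑ D ∈ S, ∏ i ∈ D, e i n) ^ 2 =
      ∑ D ∈ S, ∑ D' ∈ S, ∑ n ∈ Icc (1 : ℤ) N', (∏ i ∈ D, e i n) * (∏ i ∈ D', e i n) := by
    have h3 : ∀ n : ℤ, (∑ D ∈ S, ∏ i ∈ D, e i n) ^ 2 =
        ∑ D ∈ S, ∑ D' ∈ S, (∏ i ∈ D, e i n) * (∏ i ∈ D', e i n) := by
      intro n
      rw [sq, Finset.sum_mul_sum]
    rw [Finset.sum_congr rfl fun n _ => h3 n, Finset.sum_comm]
    refine Finset.sum_congr rfl fun D _ => ?_
    rw [Finset.sum_comm]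
  rw [h2]
  have h3 : ∑ D ∈ S, ∑ D' ∈ S, ∑ n ∈ Icc (1 : ℤ) N', (∏ i ∈ D, e i n) * (∏ i ∈ D', e i n) ≤
      ∑ D ∈ S, ∑ D' ∈ S, 2 * N' * ((∏ i ∈ D, b i) * ∏ i ∈ D', b i) :=
    Finset.sum_le_sum fun D hD => Finset.sum_le_sum fun D' hD' => h1 D hD D' hD'
  refine h3.trans ?_
  have h4 : ∑ D ∈ S, ∑ D' ∈ S, 2 * (N' : ℝ) * ((∏ i ∈ D, b i) * ∏ i ∈ D', b i) =
      2 * N' * (∑ D ∈ S, ∏ i ∈ D, b i) ^ 2 := by
    rw [sq, Finset.sum_mul_sum, Finset.mul_sum]
    refine Finset.sum_congr rfl fun D _ => ?_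
    rw [Finset.mul_sum]
  rw [h4]
  have h5 : ∑ D ∈ S, ∏ i ∈ D, b i ≤ Real.exp (∑ i, b i) := by
    have h6 : ∑ D ∈ S, ∏ i ∈ D, b i ≤ ∑ D : Finset ι, ∏ i ∈ D, b i :=
      Finset.sum_le_sum_of_subset_of_nonneg (Finset.subset_univ _) fun D _ _ => hb' D
    have h7 : ∑ D : Finset ι, ∏ i ∈ D, b i = ∏ i, (1 + b i) := by
      rw [Finset.prod_one_add, Finset.powerset_univ]
    rw [h7] at h6
    refine h6.trans ?_
    rw [Real.exp_sum]
    refine Finset.prod_le_prod (fun i _ => by have := hb i; positivity) fun i _ => ?_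
    have := Real.add_one_le_exp (b i)
    linarith
  have h6 : (∑ D ∈ S, ∏ i ∈ D, b i) ^ 2 ≤ Real.exp (2 * ∑ i, b i) := by
    have h7 : Real.exp (2 * ∑ i, b i) = Real.exp (∑ i, b i) ^ 2 := by
      rw [← Real.exp_nat_mul]
      norm_num
    rw [h7]
    exact pow_le_pow_left₀ (Finset.sum_nonneg fun D _ => hb' D) h5 2
  exact mul_le_mul_of_nonneg_left h6 (by positivity)

end

end Vale.Agent.P042.H944
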