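import Vale.Agent.P042.H944.TopRed
import Vale.Agent.P042.UU.LocC

set_option autoImplicit false

/-!
P042, row S.7: the noisy operator of `TT/LocEn` applied to the density of an integer weight, and
the dictionary between the components of `TT/LocEn`, `UU/LocC` and those of `H461/Hoef`.
-/

namespace Vale.Agent.P042.H944

open Finset
open Vale.Agent.P042.H461 (W ip Hc gm)
open Vale.Agent.P042.TT.Loc (uo uk dl mask wt ex cexp nW)

section
variable {ι : Type} [Fintype ι] [DecidableEq ι] {V : ι → Type} [∀ i, Fintype (V i)]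
  [∀ i, DecidableEq (V i)] {w : ∀ i, V i → ℝ} {red : ℤ → ∀ i, V i}

/-- the weight on the integers attached to a noisy cell -/
noncomputable def omc (w : ∀ i, V i → ℝ) (red : ℤ → ∀ i, V i) (q : ι → ℝ) (T : Finset ι)
    (x : ∀ i, V i) (n : ℤ) : ℝ :=
  ∏ i ∈ T, ((1 - q i) + q i * (if red n i = x i then (w i (x i))⁻¹ else 0))

omit [Fintype ι] [DecidableEq ι] [∀ i, Fintype (V i)] in
theorem omc_nonneg (h0 : ∀ i a, 0 ≤ w i a) {q : ι → ℝ} (hq : ∀ i, 0 ≤ q i)
    (hq1 : ∀ i, q i ≤ 1) (T : Finset ι) (x : ∀ i, V i) (n : ℤ) : 0 ≤ omc w red q T x n := by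
  refine prod_nonneg fun i _ => add_nonneg (by linarith [hq1 i]) (mul_nonneg (hq i) ?_)
  split_ifs
  · exact inv_nonneg.2 (h0 _ _)
  · exact le_rfl

/-- **the noisy density at a masked point** -/
theorem uo_push (q : ι → ℝ) {S : Finset ℤ} {f : ℤ → ℝ}
    (hw : ∀ n ∈ S, f n ≠ 0 → W w (red n) ≠ 0) (T : Finset ι) (x : ∀ i, V i) :
    uo q w (pF w red S f) (mask T x) = ∑ n ∈ S, f n * omc w red q T x n := by
  have h1 := sum_pF hw (fun z : ∀ i, V i =>
    ∏ i ∈ T, ((1 - q i) + q i * (if z i = x i then (w i (x i))⁻¹ else 0)))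
  unfold omc
  rw [← h1]
  unfold uo TT.Loc.ten
  refine sum_congr rfl fun z _ => ?_
  by_cases hz : W w z = 0
  · have h2 : pF w red S f z = 0 := by
      unfold pF
      rw [hz, div_zero]
    rw [h2]
    ring
  · have hz' : ∀ i, w i (z i) ≠ 0 := fun i => prod_ne_zero_iff.1 hz i (mem_univ i)
    have h2 : ∏ i, uk q w i (mask T x i) (z i) =
        W w z * ∏ i ∈ T, ((1 - q i) + q i * (if z i = x i then (w i (x i))⁻¹ else 0)) := by
      have h3 : ∏ i ∈ T, ((1 - q i) + q i * (if z i = x i then (w i (x i))⁻¹ else 0)) =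
          ∏ i, (if i ∈ T then
            ((1 - q i) + q i * (if z i = x i then (w i (x i))⁻¹ else 0)) else 1) := by
        rw [prod_ite_mem, univ_inter]
      rw [h3]
      unfold W
      rw [← prod_mul_distrib]
      refine prod_congr rfl fun i _ => ?_
      unfold mask
      by_cases hi : i ∈ T
      · rw [if_pos hi, if_pos hi]
        simp only [uk, dl]
        by_cases hx : x i = z i
        · rw [if_pos hx, if_pos hx.symm, hx]
          have := hz' i
          field_simp
          ring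
        · rw [if_neg hx, if_neg fun h => hx h.symm]
          ring
      · rw [if_neg hi, if_neg hi]
        simp only [uk]
        ring
    rw [h2]
    ring

omit [Fintype ι] [DecidableEq ι] [∀ i, Fintype (V i)] in
/-- size of the weight: each factor is at most `1 / w` when the atoms are at most one -/
theorem omc_le {q : ι → ℝ} (hq : ∀ i, 0 ≤ q i) (hq1 : ∀ i, q i ≤ 1) (T : Finset ι)
    (x : ∀ i, V i) (hx0 : ∀ i ∈ T, 0 < w i (x i)) (hx1 : ∀ i ∈ T, w i (x i) ≤ 1) (n : ℤ) :
    omc w red q T x n ≤ ∏ i ∈ T, (w i (x i))⁻¹ := by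
  unfold omc
  refine prod_le_prod (fun i hi => ?_) fun i hi => ?_
  · refine add_nonneg (by linarith [hq1 i]) (mul_nonneg (hq i) ?_)
    split_ifs
    · exact inv_nonneg.2 (hx0 i hi).le
    · exact le_rfl
  · have h1 : 1 ≤ (w i (x i))⁻¹ := (one_le_inv₀ (hx0 i hi)).2 (hx1 i hi)
    have h2 : (if red n i = x i then (w i (x i))⁻¹ else 0) ≤ (w i (x i))⁻¹ := by
      split_ifs
      · exact le_rfl
      · linarith
    have h3 := mul_le_mul_of_nonneg_left h2 (hq i)
    have h4 : 0 ≤ (1 - q i) * ((w i (x i))⁻¹ - 1) :=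
      mul_nonneg (by linarith [hq1 i]) (by linarith)
    nlinarith

/-! ### the two families of components coincide -/

omit [∀ i, DecidableEq (V i)] in
theorem gm_eq_cexp (F : (∀ i, V i) → ℝ) (T : Finset ι) (x : ∀ i, V i) :
    gm w F T x = cexp w T F x := by
  unfold H461.gm H461.Em cexp
  refine sum_congr rfl fun y _ => ?_
  have h1 : Tᶜ.piecewise y x = T.piecewise x y := by
    funext i
    by_cases hi : i ∈ T
    · rw [piecewise_eq_of_notMem _ _ _ (by simpa using hi), piecewise_eq_of_mem _ _ _ hi]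
    · rw [piecewise_eq_of_mem _ _ _ (by simpa using hi), piecewise_eq_of_notMem _ _ _ hi]
  rw [h1]
  rfl

theorem cW_eq_Hc (h1 : ∀ i, ∑ a, w i a = 1) (F : (∀ i, V i) → ℝ) (x : ∀ i, V i) :
    ∀ C : Finset ι, UU.Loc.cW w C F x = Hc w F C x := by
  intro C
  induction C using Finset.strongInduction with
  | H C ih =>
    have e1 : ∑ A ∈ C.powerset, UU.Loc.cW w A F x = gm w F C x := by
      rw [gm_eq_cexp, ← TT.Loc.uo_one_mask w h1, UU.Loc.uo_mask w]
      simp
    have e2 : ∑ A ∈ C.powerset, Hc w F A x = gm w F C x := by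
      rw [← H461.sum_Hc]
      simp [Finset.sum_apply]
    have hC : C ∈ C.powerset := mem_powerset_self C
    rw [← add_sum_erase _ _ hC] at e1 e2
    have e3 : ∑ A ∈ C.powerset.erase C, UU.Loc.cW w A F x =
        ∑ A ∈ C.powerset.erase C, Hc w F A x := by
      refine sum_congr rfl fun A hA => ?_
      rw [mem_erase, mem_powerset] at hA
      exact ih A (lt_of_le_of_ne hA.2 hA.1)
    linarith

/-- **the energies coincide** -/
theorem nW_eq_ip (h1 : ∀ i, ∑ a, w i a = 1) (F : (∀ i, V i) → ℝ) (C : Finset ι) :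
    nW w C F = ip w (Hc w F C) (Hc w F C) := by
  rw [UU.Loc.nW_eq w h1]
  unfold ex ip
  refine sum_congr rfl fun x _ => ?_
  simp only [cW_eq_Hc h1]
  rfl

end

end Vale.Agent.P042.H944
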