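import Mathlib

set_option autoImplicit false

/-!
P042, seam, target S: the numerical inequalities (`l = log P`, Rankin parameter `l ^ 5`).
-/

namespace Vale.Agent.P042.H944

open Finset

theorem ev_pow_exp (K : ℝ) (n : ℕ) : ∀ᶠ l : ℝ in Filter.atTop, K * l ^ n ≤ Real.exp l := by
  filter_upwards [(Real.tendsto_exp_div_pow_atTop n).eventually_ge_atTop K,
    Filter.eventually_gt_atTop 0] with l h1 h2
  rwa [le_div_iff₀ (by positivity)] at h1

/-- the conditions on `l` -/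
structure NumC (C2 C3 CA c1 c2 C4 l : ℝ) : Prop where
  h1 : 3 ≤ l
  h2 : C3 / c1 ≤ l
  h3 : 2 * CA / c1 ≤ l
  h4 : 5 * C3 / c2 ≤ l
  h5 : 10 * CA / c2 ≤ l
  h6 : 4 * C2 / c1 * l ^ 21 ≤ Real.exp l
  h7 : (|Real.log C4| + Real.log 2 + 5) / c1 * l ^ 1 ≤ Real.exp l
  h8 : 20 * C2 / c2 * l ^ 22 ≤ Real.exp l
  h9 : 5 * (|Real.log C4| + Real.log 2) / c2 * l ^ 2 ≤ Real.exp l

theorem numC_ev (C2 C3 CA c1 c2 C4 : ℝ) : ∃ l0 : ℝ, ∀ l : ℝ, l0 ≤ l → NumC C2 C3 CA c1 c2 C4 l := by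
  have key : ∀ᶠ l : ℝ in Filter.atTop, NumC C2 C3 CA c1 c2 C4 l := by
    filter_upwards [Filter.eventually_ge_atTop 3, Filter.eventually_ge_atTop (C3 / c1),
      Filter.eventually_ge_atTop (2 * CA / c1), Filter.eventually_ge_atTop (5 * C3 / c2),
      Filter.eventually_ge_atTop (10 * CA / c2), ev_pow_exp (4 * C2 / c1) 21,
      ev_pow_exp ((|Real.log C4| + Real.log 2 + 5) / c1) 1, ev_pow_exp (20 * C2 / c2) 22,
      ev_pow_exp (5 * (|Real.log C4| + Real.log 2) / c2) 2] with l h1 h2 h3 h4 h5 h6 h7 h8 h9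
    exact ⟨h1, h2, h3, h4, h5, h6, h7, h8, h9⟩
  obtain ⟨l0, hl0⟩ := Filter.eventually_atTop.1 key
  exact ⟨l0, hl0⟩

section
variable {C2 C3 CA c1 c2 C4 l : ℝ}

theorem NumC.pos (N : NumC C2 C3 CA c1 c2 C4 l) : 0 < l := by linarith [N.h1]

theorem NumC.le_pow (N : NumC C2 C3 CA c1 c2 C4 l) {n : ℕ} (hn : 1 ≤ n) : l ≤ l ^ n := by
  have := N.h1
  calc l = l ^ 1 := (pow_one l).symm
    _ ≤ l ^ n := pow_le_pow_right₀ (by linarith) hn

theorem NumC.a1 (N : NumC C2 C3 CA c1 c2 C4 l) (hc1 : 0 < c1) :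
    C3 * Real.exp l / l ^ 5 ≤ c1 * Real.exp l / l := by
  have hl := N.pos
  have h := (div_le_iff₀ hc1).1 N.h2
  have h' : C3 ≤ c1 * l ^ 4 := by
    have := mul_le_mul_of_nonneg_left (N.le_pow (n := 4) (by norm_num)) hc1.le
    linarith
  rw [div_le_div_iff₀ (by positivity) hl]
  have : C3 * Real.exp l * l ≤ (c1 * l ^ 4) * Real.exp l * l := by gcongr
  calc _ ≤ _ := this
    _ = _ := by ring

theorem NumC.a2 (N : NumC C2 C3 CA c1 c2 C4 l) (hc1 : 0 < c1) :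
    2 * CA * Real.exp l / l ^ 3 ≤ c1 * Real.exp l / l := by
  have hl := N.pos
  have h := (div_le_iff₀ hc1).1 N.h3
  have h' : 2 * CA ≤ c1 * l ^ 2 := by
    have := mul_le_mul_of_nonneg_left (N.le_pow (n := 2) (by norm_num)) hc1.le
    linarith
  rw [div_le_div_iff₀ (by positivity) hl]
  have : 2 * CA * Real.exp l * l ≤ (c1 * l ^ 2) * Real.exp l * l := by gcongr
  calc _ ≤ _ := this
    _ = _ := by ring

theorem NumC.a3 (N : NumC C2 C3 CA c1 c2 C4 l) (hc1 : 0 < c1) :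
    4 * C2 * l ^ 20 ≤ c1 * Real.exp l / l := by
  have hl := N.pos
  rw [le_div_iff₀ hl]
  have h := mul_le_mul_of_nonneg_left N.h6 hc1.le
  calc 4 * C2 * l ^ 20 * l = c1 * (4 * C2 / c1 * l ^ 21) := by field_simp
    _ ≤ c1 * Real.exp l := h

theorem NumC.a4 (N : NumC C2 C3 CA c1 c2 C4 l) (hc1 : 0 < c1) :
    |Real.log C4| + Real.log 2 + 5 ≤ c1 * Real.exp l / l := by
  have hl := N.pos
  rw [le_div_iff₀ hl]
  have h := mul_le_mul_of_nonneg_left N.h7 hc1.le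
  calc (|Real.log C4| + Real.log 2 + 5) * l
      = c1 * ((|Real.log C4| + Real.log 2 + 5) / c1 * l ^ 1) := by field_simp
    _ ≤ c1 * Real.exp l := h

theorem NumC.b1 (N : NumC C2 C3 CA c1 c2 C4 l) (hc2 : 0 < c2) :
    C3 * Real.exp l / l ^ 10 ≤ c2 * Real.exp l / l ^ 2 / 5 := by
  have hl := N.pos
  have h := (div_le_iff₀ hc2).1 N.h4
  have h' : 5 * C3 ≤ c2 * l ^ 8 := by
    have := mul_le_mul_of_nonneg_left (N.le_pow (n := 8) (by norm_num)) hc2.le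
    linarith
  rw [div_div, div_le_div_iff₀ (by positivity) (by positivity)]
  have : 5 * C3 * Real.exp l * l ^ 2 ≤ (c2 * l ^ 8) * Real.exp l * l ^ 2 := by gcongr
  calc C3 * Real.exp l * (l ^ 2 * 5) = 5 * C3 * Real.exp l * l ^ 2 := by ring
    _ ≤ _ := this
    _ = _ := by ring

theorem NumC.b2 (N : NumC C2 C3 CA c1 c2 C4 l) (hc2 : 0 < c2) :
    2 * CA * Real.exp l / l ^ 3 ≤ c2 * Real.exp l / l ^ 2 / 5 := by
  have hl := N.pos
  have h := (div_le_iff₀ hc2).1 N.h5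
  rw [div_div, div_le_div_iff₀ (by positivity) (by positivity)]
  have : (10 * CA) * Real.exp l * l ^ 2 ≤ (l * c2) * Real.exp l * l ^ 2 := by gcongr
  calc 2 * CA * Real.exp l * (l ^ 2 * 5) = (10 * CA) * Real.exp l * l ^ 2 := by ring
    _ ≤ _ := this
    _ = _ := by ring

theorem NumC.b3 (N : NumC C2 C3 CA c1 c2 C4 l) (hc2 : 0 < c2) :
    4 * C2 * l ^ 20 ≤ c2 * Real.exp l / l ^ 2 / 5 := by
  have hl := N.pos
  rw [div_div, le_div_iff₀ (by positivity)]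
  have h := mul_le_mul_of_nonneg_left N.h8 hc2.le
  calc 4 * C2 * l ^ 20 * (l ^ 2 * 5) = c2 * (20 * C2 / c2 * l ^ 22) := by field_simp; ring
    _ ≤ c2 * Real.exp l := h

theorem NumC.b4 (N : NumC C2 C3 CA c1 c2 C4 l) (hc2 : 0 < c2) :
    |Real.log C4| + Real.log 2 ≤ c2 * Real.exp l / l ^ 2 / 5 := by
  have hl := N.pos
  rw [div_div, le_div_iff₀ (by positivity)]
  have h := mul_le_mul_of_nonneg_left N.h9 hc2.le
  calc (|Real.log C4| + Real.log 2) * (l ^ 2 * 5)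
      = c2 * (5 * (|Real.log C4| + Real.log 2) / c2 * l ^ 2) := by field_simp
    _ ≤ c2 * Real.exp l := h

theorem NumC.rankin (N : NumC C2 C3 CA c1 c2 C4 l) {m0 : ℕ}
    (hm : c1 * Real.exp l / l ≤ m0 + 1) :
    (l ^ 5)⁻¹ ^ m0 ≤ Real.exp (-(5 * (c1 * Real.exp l / l) - 5)) := by
  have hl := N.pos
  have hlog : 1 ≤ Real.log l := by
    rw [Real.le_log_iff_exp_le hl]
    exact (Real.exp_one_lt_d9.le.trans (by norm_num)).trans N.h1
  have h0 : (l ^ 5)⁻¹ = Real.exp (-(5 * Real.log l)) := by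
    rw [Real.exp_neg]
    congr 1
    rw [mul_comm, Real.exp_mul, Real.exp_log hl]
    norm_cast
  rw [h0, ← Real.exp_nat_mul, Real.exp_le_exp]
  have h8' : (m0 : ℝ) * 1 ≤ m0 * Real.log l := mul_le_mul_of_nonneg_left hlog (by positivity)
  have h9' : (m0 : ℝ) * -(5 * Real.log l) = -(5 * (m0 * Real.log l)) := by ring
  rw [h9']
  linarith

/-- first part of the error -/
theorem NumC.t1 (N : NumC C2 C3 CA c1 c2 C4 l) (hc1 : 0 < c1) (hC4 : 0 < C4) {m0 : ℕ}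
    {S A qn : ℝ} (hS : S ≤ C3 * Real.exp l / l ^ 10) (hA0 : 0 ≤ A)
    (hA : A ≤ Real.exp (CA * Real.exp l / l ^ 3)) (hq1 : 1 ≤ qn)
    (hq : qn ≤ Real.exp (C2 * l ^ 20)) (hm : c1 * Real.exp l / l ≤ m0 + 1) :
    C4 * qn ^ 4 * A ^ 2 * ((l ^ 5)⁻¹ ^ m0 * Real.exp (l ^ 5 * S)) ≤ 1 / 2 := by
  have hl := N.pos
  have hC4e : C4 ≤ Real.exp |Real.log C4| := by
    calc C4 = Real.exp (Real.log C4) := (Real.exp_log hC4).symm
      _ ≤ _ := Real.exp_le_exp.2 (le_abs_self _)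
  have hq4 : qn ^ 4 ≤ Real.exp (4 * C2 * l ^ 20) := by
    have h := pow_le_pow_left₀ (by linarith) hq 4
    rw [← Real.exp_nat_mul] at h
    refine h.trans (le_of_eq ?_)
    congr 1
    push_cast
    ring
  have hA2 : A ^ 2 ≤ Real.exp (2 * CA * Real.exp l / l ^ 3) := by
    have h := pow_le_pow_left₀ hA0 hA 2
    rw [← Real.exp_nat_mul] at h
    refine h.trans (le_of_eq ?_)
    congr 1
    push_cast
    ring
  have hR := N.rankin hm
  have hexp1 : Real.exp (l ^ 5 * S) ≤ Real.exp (C3 * Real.exp l / l ^ 5) := by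
    rw [Real.exp_le_exp]
    have h := mul_le_mul_of_nonneg_left hS (show 0 ≤ l ^ 5 by positivity)
    refine h.trans (le_of_eq ?_)
    field_simp
  have hp : 0 ≤ (l ^ 5)⁻¹ ^ m0 := by positivity
  calc C4 * qn ^ 4 * A ^ 2 * ((l ^ 5)⁻¹ ^ m0 * Real.exp (l ^ 5 * S))
      ≤ Real.exp |Real.log C4| * Real.exp (4 * C2 * l ^ 20) *
        Real.exp (2 * CA * Real.exp l / l ^ 3) *
        (Real.exp (-(5 * (c1 * Real.exp l / l) - 5)) * Real.exp (C3 * Real.exp l / l ^ 5)) := by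
        gcongr
    _ = Real.exp (|Real.log C4| + 4 * C2 * l ^ 20 + 2 * CA * Real.exp l / l ^ 3 +
        (-(5 * (c1 * Real.exp l / l) - 5) + C3 * Real.exp l / l ^ 5)) := by
        rw [Real.exp_add, Real.exp_add, Real.exp_add, Real.exp_add]
    _ ≤ Real.exp (-Real.log 2) := by
        rw [Real.exp_le_exp]
        have h1 := N.a1 hc1
        have h2 := N.a2 hc1
        have h3 := N.a3 hc1
        have h4 := N.a4 hc1
        have h10 : 0 < c1 * Real.exp l / l := by positivity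
        linarith
    _ = 1 / 2 := by
        rw [Real.exp_neg, Real.exp_log (by norm_num)]
        norm_num

/-- second part of the error -/
theorem NumC.t2 (N : NumC C2 C3 CA c1 c2 C4 l) (hc2 : 0 < c2) (hC4 : 0 < C4)
    {S A qn δ : ℝ} (hS : S ≤ C3 * Real.exp l / l ^ 10) (hA0 : 0 ≤ A)
    (hA : A ≤ Real.exp (CA * Real.exp l / l ^ 3)) (hq1 : 1 ≤ qn)
    (hq : qn ≤ Real.exp (C2 * l ^ 20)) (hδ0 : 0 ≤ δ)
    (hδ : δ ≤ Real.exp (-(c2 * Real.exp l / l ^ 2))) :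
    C4 * qn ^ 4 * A ^ 2 * (δ * Real.exp S) ≤ 1 / 2 := by
  have hl := N.pos
  have hC4e : C4 ≤ Real.exp |Real.log C4| := by
    calc C4 = Real.exp (Real.log C4) := (Real.exp_log hC4).symm
      _ ≤ _ := Real.exp_le_exp.2 (le_abs_self _)
  have hq4 : qn ^ 4 ≤ Real.exp (4 * C2 * l ^ 20) := by
    have h := pow_le_pow_left₀ (by linarith) hq 4
    rw [← Real.exp_nat_mul] at h
    refine h.trans (le_of_eq ?_)
    congr 1
    push_cast
    ring
  have hA2 : A ^ 2 ≤ Real.exp (2 * CA * Real.exp l / l ^ 3) := by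
    have h := pow_le_pow_left₀ hA0 hA 2
    rw [← Real.exp_nat_mul] at h
    refine h.trans (le_of_eq ?_)
    congr 1
    push_cast
    ring
  have hexp2 : Real.exp S ≤ Real.exp (C3 * Real.exp l / l ^ 10) := Real.exp_le_exp.2 hS
  calc C4 * qn ^ 4 * A ^ 2 * (δ * Real.exp S)
      ≤ Real.exp |Real.log C4| * Real.exp (4 * C2 * l ^ 20) *
        Real.exp (2 * CA * Real.exp l / l ^ 3) *
        (Real.exp (-(c2 * Real.exp l / l ^ 2)) * Real.exp (C3 * Real.exp l / l ^ 10)) := by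
        gcongr
    _ = Real.exp (|Real.log C4| + 4 * C2 * l ^ 20 + 2 * CA * Real.exp l / l ^ 3 +
        (-(c2 * Real.exp l / l ^ 2) + C3 * Real.exp l / l ^ 10)) := by
        rw [Real.exp_add, Real.exp_add, Real.exp_add, Real.exp_add]
    _ ≤ Real.exp (-Real.log 2) := by
        rw [Real.exp_le_exp]
        have h1 := N.b1 hc2
        have h2 := N.b2 hc2
        have h3 := N.b3 hc2
        have h4 := N.b4 hc2
        have h10 : 0 < c2 * Real.exp l / l ^ 2 := by positivity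
        linarith
    _ = 1 / 2 := by
        rw [Real.exp_neg, Real.exp_log (by norm_num)]
        norm_num

end

/-- **numbers of the seam** -/
theorem seam_num (C2 C3 CA c1 c2 C4 : ℝ) (hc1 : 0 < c1) (hc2 : 0 < c2) (hC4 : 0 < C4) :
    ∃ l0 : ℝ, ∀ l : ℝ, l0 ≤ l → ∀ (m0 : ℕ) (S A qn δ : ℝ), 0 ≤ S → S ≤ C3 * Real.exp l / l ^ 10 →
      0 ≤ A → A ≤ Real.exp (CA * Real.exp l / l ^ 3) → 1 ≤ qn → qn ≤ Real.exp (C2 * l ^ 20) →
      c1 * Real.exp l / l ≤ m0 + 1 → 0 ≤ δ → δ ≤ Real.exp (-(c2 * Real.exp l / l ^ 2)) →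
      C4 * qn ^ 4 * A ^ 2 * ((l ^ 5)⁻¹ ^ m0 * Real.exp (l ^ 5 * S) + δ * Real.exp S) ≤ 1 := by
  obtain ⟨l0, hl0⟩ := numC_ev C2 C3 CA c1 c2 C4
  refine ⟨l0, fun l hl m0 S A qn δ _ hS hA0 hA hq1 hq hm hδ0 hδ => ?_⟩
  have N := hl0 l hl
  have t1 := N.t1 hc1 hC4 hS hA0 hA hq1 hq hm
  have t2 := N.t2 hc2 hC4 hS hA0 hA hq1 hq hδ0 hδ
  rw [mul_add]
  linarith

/-- sums of `1 / √n` over distinct positive integers up to `X ^ 2` -/
theorem sum_sqrt_le {ι : Type*} [Fintype ι] (prm : ι → ℕ) (hinj : Function.Injective prm)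
    (hpos : ∀ i, 1 ≤ prm i) (X : ℝ) (hX : 0 ≤ X) (hle : ∀ i, (prm i : ℝ) ≤ X ^ 2) :
    ∑ i, 1 / Real.sqrt (prm i) ≤ 2 * X := by
  classical
  have hr : ∀ n : ℕ, ∑ j ∈ range n, 1 / Real.sqrt ((j : ℝ) + 1) ≤ 2 * Real.sqrt n := by
    intro n
    induction n with
    | zero => simp
    | succ n ih =>
      rw [Finset.sum_range_succ]
      have h1 : 1 / Real.sqrt ((n : ℝ) + 1) ≤ 2 * (Real.sqrt ((n : ℝ) + 1) - Real.sqrt n) := by
        have h2 : 0 < Real.sqrt ((n : ℝ) + 1) := Real.sqrt_pos.2 (by positivity)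
        have h3 : Real.sqrt n ≤ Real.sqrt ((n : ℝ) + 1) := Real.sqrt_le_sqrt (by linarith)
        have h4 : Real.sqrt ((n : ℝ) + 1) ^ 2 = n + 1 := Real.sq_sqrt (by positivity)
        have h5 : Real.sqrt (n : ℝ) ^ 2 = n := Real.sq_sqrt (by positivity)
        rw [div_le_iff₀ h2]
        nlinarith [sq_nonneg (Real.sqrt ((n : ℝ) + 1) - Real.sqrt n)]
      push_cast
      linarith
  set n : ℕ := ⌊X ^ 2⌋₊ with hn
  have hmem : ∀ i, prm i ≤ n := fun i => Nat.le_floor (hle i)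
  have h1 : ∑ i, 1 / Real.sqrt (prm i) =
      ∑ m ∈ univ.image prm, 1 / Real.sqrt (m : ℝ) := by
    rw [Finset.sum_image fun i _ j _ h => hinj h]
  have h2 : univ.image prm ⊆ (range n).image (fun j : ℕ => j + 1) := by
    intro m hm
    rw [Finset.mem_image] at hm
    obtain ⟨i, _, rfl⟩ := hm
    rw [Finset.mem_image]
    exact ⟨prm i - 1, mem_range.2 (by have := hmem i; have := hpos i; omega),
      by have := hpos i; omega⟩
  have h3 : ∑ m ∈ (range n).image (fun j : ℕ => j + 1), 1 / Real.sqrt (m : ℝ) =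
      ∑ j ∈ range n, 1 / Real.sqrt ((j : ℝ) + 1) := by
    rw [Finset.sum_image fun i _ j _ h => by
      have h' : i + 1 = j + 1 := h
      omega]
    refine Finset.sum_congr rfl fun j _ => ?_
    push_cast
    rfl
  rw [h1]
  refine (Finset.sum_le_sum_of_subset_of_nonneg h2 fun m _ _ => by positivity).trans ?_
  rw [h3]
  refine (hr n).trans ?_
  have h4 : Real.sqrt n ≤ X := by
    rw [Real.sqrt_le_left hX]
    exact Nat.floor_le (by positivity)
  linarith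

/-- **total rate of the primes up to `exp (2 l) / l ^ 20`** -/
theorem sum_rate {ι : Type*} [Fintype ι] (prm : ι → ℕ) (hinj : Function.Injective prm)
    (hpos : ∀ i, 1 ≤ prm i) (l : ℝ) (hl : 0 < l)
    (hle : ∀ i, (prm i : ℝ) ≤ Real.exp (2 * l) / l ^ 20) :
    ∑ i, 1 / Real.sqrt (prm i) ≤ 2 * Real.exp l / l ^ 10 := by
  have h1 : (Real.exp l / l ^ 10) ^ 2 = Real.exp (2 * l) / l ^ 20 := by
    rw [div_pow, ← Real.exp_nat_mul]
    congr 1
    ring
  have h2 := sum_sqrt_le prm hinj hpos (Real.exp l / l ^ 10) (by positivity)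
    (fun i => by rw [h1]; exact hle i)
  refine h2.trans (le_of_eq ?_)
  ring

/-- size of a product of at most `m0` primes -/
theorem prod_le {ι : Type*} (prm : ι → ℕ) (l : ℝ) (hl : 0 ≤ l)
    (hle : ∀ i, (prm i : ℝ) ≤ Real.exp (2 * l)) (m0 : ℕ) (B : Finset ι) (hB : B.card ≤ m0) :
    ((∏ i ∈ B, prm i : ℕ) : ℝ) ≤ Real.exp (2 * l * m0) := by
  push_cast
  have h1 : ∏ i ∈ B, (prm i : ℝ) ≤ ∏ i ∈ B, Real.exp (2 * l) :=
    Finset.prod_le_prod (fun i _ => Nat.cast_nonneg _) fun i _ => hle i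
  refine h1.trans ?_
  rw [Finset.prod_const, ← Real.exp_nat_mul, Real.exp_le_exp]
  have h2 : (B.card : ℝ) ≤ m0 := by exact_mod_cast hB
  nlinarith

end Vale.Agent.P042.H944
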