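import Vale.Agent.P042.H944.TopKw
import Vale.Agent.P042.H452.Seam3
import Vale.Agent.P042.H245.PPf

set_option autoImplicit false

/-!
P042: all facts on the rates of the seam, for one set of tiny primes `T` and the sieve primes
`PPf C1 g P`, from the substitution alone.
-/

namespace Vale.Agent.P042.H944

open Polynomial Finset Vale.Agent.P042.SS Vale.Agent.P042.H74 Vale.Agent.P042.H245
  Vale.Agent.P042.H452

/-- the facts on the rates `kw`; `T` tiny primes, `PP` sieve primes, `g` the substituted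
polynomial -/
structure KwT (k : ℕ) (c : ℝ) (T PP : Finset ℕ) (g : ℤ[X]) (kw : ℕ → ℕ → ℝ) : Prop where
  ns : NS g PP
  dis : Disjoint T PP
  nn : ∀ p j, 0 ≤ kw p j
  hG : ∀ (q : ℕ) (a : ℤ), 1 ≤ q → IsCoprime a (q : ℤ) → ‖GamN g PP a q‖ ≤ kapProd kw q
  zero : ∀ p ∈ PP, ∀ j : ℕ, 2 ≤ j → kw p j = 0
  one : ∀ p : ℕ, p.Prime → p ∉ T → ∀ j : ℕ, 1 ≤ j → kw p j ≤ 4 * k / Real.sqrt p
  two : ∀ p : ℕ, p.Prime → p ∉ T → ∀ j : ℕ, 2 ≤ j → kw p j ≤ k / p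
  pow : ∀ p : ℕ, p.Prime → p ∉ T → ∀ j : ℕ, 1 ≤ j → kw p j ≤ (p : ℝ) ^ (-(c * j))
  prod : ∀ m : ℕ, 1 ≤ m → (∀ p ∈ T, ¬ p ∣ m) → kapProd kw m ≤ (m : ℝ) ^ (-c)
  big : ∀ p : ℕ, p.Prime → p ∉ T → 2 * k < p

/-- **the rates**, for every `C1` -/
theorem kwT (k R : ℕ) (hk : 2 ≤ k) (hR : 1 ≤ R) :
    ∃ (c : ℝ) (kap : ℕ → ℕ → ℝ) (K0 : ℕ), 0 < c ∧ c ≤ 1 / 4 ∧ 1 ≤ K0 ∧
      ∀ f : ℤ[X], f.natDegree = k → 0 < f.leadingCoeff →
        (∀ g : ℤ, (∀ j : ℕ, 1 ≤ j → g ∣ f.coeff j) → g ∣ (R : ℤ)) →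
      ∀ (T : Finset ℕ) (V : ℕ → ℕ) (q1 : ℕ) (z0 : ℤ), (∀ p : ℕ, p.Prime → p ≤ K0 → p ∈ T) →
        TinyD f T V q1 z0 →
      ∀ (C1 P : ℝ),
        KwT k c T (PPf C1 (fer f q1 z0) P) (fer f q1 z0)
          (kwS k T (PPf C1 (fer f q1 z0) P) kap) ∧
        (∀ p : ℕ, p.Prime → p ∉ T → p ≤ ⌊P ^ C1⌋₊ → p ∈ PPf C1 (fer f q1 z0) P) := by
  obtain ⟨c, K0, kap, hc0, hc4, hkK, hRK, hkap0, hkap1, hmain⟩ := seamG2 k R hk hR
  refine ⟨c, kap, K0, hc0, hc4, by omega, fun f hfk hfl hfR T V q1 z0 hKT hD C1 P => ?_⟩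
  have hq1T : ∀ p : ℕ, p.Prime → p ∣ q1 → p ∈ T := fun p hp hd => hD.mem_of_dvd_q1 hp hd
  have hPPT : ∀ p ∈ PPf C1 (fer f q1 z0) P, p.Prime ∧ p ∉ T := by
    intro p hp
    obtain ⟨h1, h2, h3, h4⟩ := mem_PPf.1 hp
    exact ⟨h1, hD.notMem_of_nonconst h3⟩
  obtain ⟨m1, m2, m3, m4, m5, m6, m7, m8⟩ := hmain f hfk hfl hfR T (PPf C1 (fer f q1 z0) P) q1 z0
    hq1T hKT hPPT
  have hdeg : (fer f q1 z0).natDegree = k := by
    rw [← hfk]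
    unfold fer
    rw [natDegree_comp]
    have hq : (q1 : ℤ) ≠ 0 := by
      have := hD.q1_pos
      exact_mod_cast (by omega : q1 ≠ 0)
    rw [natDegree_taylor, natDegree_C_mul hq, natDegree_X, mul_one]
  refine ⟨⟨m1, ?_, fun p j => kwS_nonneg k T _ hkap0 p j, m3, ?_, m8, m6, m7, m4, ?_⟩, ?_⟩
  · rw [disjoint_left]
    intro p hp hp'
    exact (hPPT p hp').2 hp
  · intro p hp j hj
    unfold kwS kapW
    rw [if_pos hp, if_neg (by omega)]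
  · intro p hp hpT
    by_contra hcon
    exact hpT (hKT p hp (by omega))
  · intro p hp hpT hpP
    rw [mem_PPf]
    refine ⟨hp, ?_, (m2 p hp hpT).2.2, hpP⟩
    rw [hdeg]
    exact (m2 p hp hpT).1

/-- the prime factors of the second parts of the moduli -/
theorem mem_MM_prime {ι : Type*} [Fintype ι] {T : Finset ℕ} {prm : ι → ℕ} {M0 m2 p : ℕ} (h : m2 ∈ MM T prm M0)
    (hpm : p ∣ m2) : p ∉ T ∧ (∀ i, prm i ≠ p) ∧ p ≤ M0 := by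
  unfold MM at h
  rw [mem_filter, mem_Icc] at h
  obtain ⟨⟨h1, h2⟩, h3, h4⟩ := h
  refine ⟨fun hp => h3 p hp hpm, fun i hi => h4 i (hi ▸ hpm), ?_⟩
  exact (Nat.le_of_dvd (by omega) hpm).trans h2

end Vale.Agent.P042.H944
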