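import Vale.Agent.P042.H944.TopKwS
import Vale.Agent.P042.H419.Ctx

set_option autoImplicit false

/-!
P042, target S, LEAF T: the rates of the seam and the top primes, for the objects of `H419.Ctx`.
-/

namespace Vale.Agent.P042.H944

open Polynomial Finset Vale.Agent.P042.SS Vale.Agent.P042.H74 Vale.Agent.P042.H245
  Vale.Agent.P042.H452 Vale.Agent.P042.H419

theorem mem_Ts {E : ℕ} {P : ℝ} {p : ℕ} : p ∈ Ts E P ↔ p.Prime ∧ p ≤ ⌊Real.log P ^ E⌋₊ := by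
  unfold Ts
  rw [mem_filter, mem_range, Nat.lt_succ_iff]
  tauto

/-- a prime which is neither tiny nor a prime of the product space is a top prime -/
theorem top_lt {ι : Type*} {E A' : ℕ} {P : ℝ} {prm : ι → ℕ} (hl : 0 ≤ Real.log P ^ E)
    (H : PrmS E A' P prm) {p : ℕ} (hp : p.Prime) (hT : p ∉ Ts E P) (hi : ∀ i, prm i ≠ p) :
    P ^ 2 / Real.log P ^ A' < (p : ℝ) := by
  by_contra hcon
  rw [not_lt] at hcon
  have h1 : Real.log P ^ E < (p : ℝ) := by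
    have h2 : ¬ p ≤ ⌊Real.log P ^ E⌋₊ := fun h => hT (mem_Ts.2 ⟨hp, h⟩)
    rw [not_le, Nat.floor_lt hl] at h2
    exact h2
  obtain ⟨i, hi'⟩ := H.all p hp h1 hcon
  exact hi i hi'

/-- **rates and top primes for the objects of target S** -/
theorem kwC (k R : ℕ) (hk : 2 ≤ k) (hR : 1 ≤ R) :
    ∃ (c : ℝ) (kap : ℕ → ℕ → ℝ), 0 < c ∧ c ≤ 1 / 4 ∧
      ∀ (E A' : ℕ) (C1 : ℝ), 1 ≤ E → 2 ≤ C1 → ∃ P0 : ℝ, ∀ P : ℝ, P0 ≤ P →
      ∀ (ι : Type) [Fintype ι] (prm : ι → ℕ) (f : ℤ[X]) (C N' : ℕ) (κ : ℝ) (mu : ℕ → ℝ)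
        (q1 z0 Hw h0 c1 c2 : ℕ), PrmS E A' P prm →
        SObj k R E C κ P f N' mu q1 z0 Hw h0 c1 c2 →
      KwT k c (Ts E P) (PPf C1 (fer f q1 z0) P) (fer f q1 z0)
          (kwS k (Ts E P) (PPf C1 (fer f q1 z0) P) kap) ∧
        (∀ p : ℕ, p.Prime → p ∉ Ts E P → p ≤ ⌊P ^ C1⌋₊ → p ∈ PPf C1 (fer f q1 z0) P) ∧
        (∀ i, prm i ∈ PPf C1 (fer f q1 z0) P) ∧
        ∀ M0 m2 : ℕ, m2 ∈ MM (Ts E P) prm M0 → ∀ p : ℕ, p.Prime → p ∣ m2 →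
          p ∉ Ts E P ∧ (∀ i, prm i ≠ p) ∧ p ≤ M0 ∧ P ^ 2 / Real.log P ^ A' < (p : ℝ) := by
  obtain ⟨c, kap, K0, hc0, hc4, hK01, hmain⟩ := kwT k R hk hR
  refine ⟨c, kap, hc0, hc4, fun E A' C1 hE hC1 => ?_⟩
  have hlog := Real.tendsto_log_atTop.eventually_ge_atTop ((K0 : ℝ) + 1)
  obtain ⟨P0, hP0⟩ := Filter.eventually_atTop.1 (hlog.and (Filter.eventually_ge_atTop (1 : ℝ)))
  refine ⟨P0, fun P hP ι _ prm f C N' κ mu q1 z0 Hw h0 c1 c2 HP HS => ?_⟩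
  obtain ⟨hl, hP1⟩ := hP0 P hP
  have hK00 : (1 : ℝ) ≤ K0 := by exact_mod_cast hK01
  have hl1 : (1 : ℝ) ≤ Real.log P := by linarith
  have hlE : (K0 : ℝ) ≤ Real.log P ^ E := by
    calc (K0 : ℝ) ≤ Real.log P := by linarith
      _ = Real.log P ^ 1 := (pow_one _).symm
      _ ≤ Real.log P ^ E := pow_le_pow_right₀ hl1 hE
  have hlE0 : 0 ≤ Real.log P ^ E := by positivity
  have hKT : ∀ p : ℕ, p.Prime → p ≤ K0 → p ∈ Ts E P := by
    intro p hp hpK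
    rw [mem_Ts]
    refine ⟨hp, Nat.le_floor ?_⟩
    have : (p : ℝ) ≤ K0 := by exact_mod_cast hpK
    linarith
  obtain ⟨h1, h2⟩ := hmain f HS.deg HS.lead HS.cont (Ts E P) (Vp k R) q1 z0 hKT HS.tiny C1 P
  refine ⟨h1, h2, fun i => ?_, fun M0 m2 hm2 p hp hpm => ?_⟩
  · apply h2 (prm i) (HP.prime i)
    · intro hmem
      have h3 := (mem_Ts.1 hmem).2
      have h4 := (Nat.le_floor_iff hlE0).1 h3
      exact absurd (HP.lo i) (not_lt.2 h4)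
    · apply Nat.le_floor
      refine (HP.hi i).trans ?_
      have hA : (1 : ℝ) ≤ Real.log P ^ A' := one_le_pow₀ hl1
      have h5 : P ^ 2 / Real.log P ^ A' ≤ P ^ 2 := div_le_self (by positivity) hA
      refine h5.trans ?_
      have h6 : P ^ (2 : ℝ) = P ^ 2 := by
        rw [← Real.rpow_natCast]
        norm_num
      rw [← h6]
      exact Real.rpow_le_rpow_of_exponent_le hP1 hC1
  · obtain ⟨h3, h4, h5⟩ := mem_MM_prime hm2 hpm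
    exact ⟨h3, h4, h5, top_lt hlE0 HP hp h3 h4⟩

end Vale.Agent.P042.H944
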