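import Vale.Agent.P042.H188.Hlev
import Vale.Agent.P042.H359.Bridge
import Vale.Agent.P042.H48.TopDef
import Vale.Agent.P042.H758.TopNum
import Vale.Agent.P042.H944.TopKwC

set_option autoImplicit false

/-!
P042, target S, LEAF T: a residue class modulo a top modulus in a cell is a cell.
-/

namespace Vale.Agent.P042.H944

open Polynomial Finset Vale.Agent.P042.SS Vale.Agent.P042.H74 Vale.Agent.P042.H245
  Vale.Agent.P042.H452 Vale.Agent.P042.H419 Vale.Agent.P042.H359 Vale.Agent.P042.H188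
  Vale.Agent.P042.H48.Top Vale.Agent.P042.H758

/-- a class modulo `d` in the cell of `c` modulo `qn` is a cell modulo `qn * d` -/
theorem tcell_cell {qn d : ℕ} (hqn : 1 ≤ qn) (hd : 1 ≤ d) (hcop : Nat.Coprime qn d)
    {c z u v : ℕ} (hc : c < qn) :
    ∃ c' : ℕ, c' < qn * d ∧ tcell (cellZ qn c u v) ⟨d, z⟩ = cellZ (qn * d) c' u v := by
  obtain ⟨c', hc1, hc2⟩ := Nat.chineseRemainder hcop c z
  have hpos : 0 < qn * d := Nat.mul_pos hqn hd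
  refine ⟨c' % (qn * d), Nat.mod_lt _ hpos, ?_⟩
  have hq0 : (qn : ℤ) ≠ 0 := by exact_mod_cast (by omega : qn ≠ 0)
  have h1 : ∀ n : ℤ, n % (qn : ℤ) = (c : ℤ) ↔ n ≡ (c' : ℤ) [ZMOD (qn : ℤ)] := by
    intro n
    have e1 : ((c' : ℤ)) % (qn : ℤ) = (c : ℤ) := by
      have h2 : c' % qn = c % qn := hc1
      rw [Nat.mod_eq_of_lt hc] at h2
      exact_mod_cast h2
    unfold Int.ModEq
    rw [e1]
  have h2 : ∀ n : ℤ, n ≡ (z : ℤ) [ZMOD (d : ℤ)] ↔ n ≡ (c' : ℤ) [ZMOD (d : ℤ)] := by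
    intro n
    have e1 : (c' : ℤ) ≡ (z : ℤ) [ZMOD (d : ℤ)] := (Int.natCast_modEq_iff).2 hc2
    exact ⟨fun h => h.trans e1.symm, fun h => h.trans e1⟩
  have h3 : ∀ n : ℤ, n % ((qn * d : ℕ) : ℤ) = ((c' % (qn * d) : ℕ) : ℤ) ↔
      n ≡ (c' : ℤ) [ZMOD ((qn : ℤ) * (d : ℤ))] := by
    intro n
    unfold Int.ModEq
    push_cast
    rfl
  ext n
  unfold tcell cellZ
  simp only [mem_filter]
  rw [h3, ← Int.modEq_and_modEq_iff_modEq_mul (by simpa using hcop), h1]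
  constructor
  · rintro ⟨⟨a1, a2⟩, a3⟩
    exact ⟨a1, a2, (h2 n).1 a3⟩
  · rintro ⟨a1, a2, a3⟩
    exact ⟨⟨a1, a2⟩, (h2 n).2 a3⟩

theorem cop_qnul {f : ℤ[X]} {T : Finset ℕ} {V : ℕ → ℕ} {q1 : ℕ} {z0 : ℤ}
    (h : TinyD f T V q1 z0) {d : ℕ} (hd : 1 ≤ d) (hdT : ∀ p ∈ d.primeFactors, p ∉ T) :
    Nat.Coprime (qnul f q1 z0) d := by
  apply Nat.coprime_of_dvd
  intro p hp hpq hpd
  have h1 : p ∣ q1 := by
    unfold qnul at hpq
    rcases hp.dvd_mul.1 hpq with h2 | h2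
    · exact h2
    · exact h2.trans (by
        have := Int.gcd_dvd_right ((derivative f).eval z0) (q1 : ℤ)
        exact_mod_cast this)
  exact hdT p (Nat.mem_primeFactors.2 ⟨hp, hpd, by omega⟩) (h.mem_of_dvd_q1 hp h1)

/-- **T3**: the top cells of a cell are cells -/
theorem tcell_S {ι : Type} {f : ℤ[X]} {T : Finset ℕ} {V : ℕ → ℕ} {q1 : ℕ} {z0 : ℤ}
    (h : TinyD f T V q1 z0) {prm : ι → ℕ} {M0 : ℕ} {Y : ℝ} (hY : 0 ≤ Y) {c u v : ℕ}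
    (hc : c < qnul f q1 z0) :
    ∀ sg ∈ SGt (PrT T prm M0) Y, 1 ≤ sg.1 ∧ (sg.1 : ℝ) ≤ Y ∧
      Nat.Coprime (qnul f q1 z0) sg.1 ∧ (∀ p ∈ sg.1.primeFactors, p ∉ T ∧ ∀ i, prm i ≠ p) ∧
      ∃ c' : ℕ, c' < qnul f q1 z0 * sg.1 ∧
        tcell (cellZ (qnul f q1 z0) c u v) sg = cellZ (qnul f q1 z0 * sg.1) c' u v := by
  intro sg hsg
  obtain ⟨d, z⟩ := sg
  unfold SGt at hsg
  rw [Finset.mem_sigma, mem_DM hY] at hsg
  obtain ⟨⟨h1, h2, h3⟩, h4⟩ := hsg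
  have h5 : ∀ p ∈ d.primeFactors, p ∉ T ∧ ∀ i, prm i ≠ p := fun p hp =>
    ⟨(mem_PrT.1 (h3 p hp)).2.2.1, (mem_PrT.1 (h3 p hp)).2.2.2⟩
  have hcop := cop_qnul h h1 fun p hp => (h5 p hp).1
  exact ⟨h1, h2, hcop, h5, tcell_cell (qnul_pos z0 h.q1_pos) h1 hcop hc⟩

/-- the primes of the top moduli satisfy 758's `TopP` -/
theorem topP_of {ι : Type} {k E A' M0 : ℕ} {c P : ℝ} {prm : ι → ℕ} {PP : Finset ℕ} {g : ℤ[X]}
    {kw : ℕ → ℕ → ℝ} (hl : 0 ≤ Real.log P ^ E) (HP : PrmS E A' P prm)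
    (H : KwT k c (Ts E P) PP g kw) : ∀ p ∈ PrT (Ts E P) prm M0, TopP k A' c P PP kw p := by
  intro p hp
  obtain ⟨h1, h2, h3, h4⟩ := mem_PrT.1 hp
  refine ⟨h2, (top_lt hl HP h2 h3 h4).le, fun v hv => H.one p h2 h3 v hv,
    fun v hv => H.pow p h2 h3 v hv, fun hpp v hv => H.zero p hpp v hv⟩

/-- the second parts of the moduli have all their primes in `PrT` -/
theorem primes_MM {ι : Type} [Fintype ι] {T : Finset ℕ} {prm : ι → ℕ} {M0 m2 : ℕ}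
    (h : m2 ∈ MM T prm M0) : 1 ≤ m2 ∧ m2 ≤ M0 ∧ ∀ p ∈ m2.primeFactors, p ∈ PrT T prm M0 := by
  have h0 := h
  unfold MM at h0
  rw [mem_filter, mem_Icc] at h0
  refine ⟨h0.1.1, h0.1.2, fun p hp => ?_⟩
  obtain ⟨h1, h2, h3⟩ := mem_MM_prime h (Nat.dvd_of_mem_primeFactors hp)
  exact mem_PrT.2 ⟨h3, Nat.prime_of_mem_primeFactors hp, h1, h2⟩

end Vale.Agent.P042.H944
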