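import Vale.Agent.P042.H452.Seam4
import Vale.Agent.P042.H365.OneBody

set_option autoImplicit false

/-!
P042, row S.7: the terms `FB` with a modulus `m2` outside of the product space are bounded by the
energies of the Hoeffding components of the twisted weights (one-body parts included).
-/

namespace Vale.Agent.P042.H944

open Polynomial Finset Vale.Agent.P042.SS Vale.Agent.P042.H74
open Vale.Agent.P042.H461 (W ip Hc gm)
open Vale.Agent.P042.H452 (FB)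

section
variable {ι : Type*} [Fintype ι] [DecidableEq ι] {V : ι → Type*} [∀ i, Fintype (V i)]
  [∀ i, DecidableEq (V i)] {w : ∀ i, V i → ℝ} {red : ℤ → ∀ i, V i}

/-- the density of the weight `f` on `S`, pushed to the product space -/
noncomputable def pF (w : ∀ i, V i → ℝ) (red : ℤ → ∀ i, V i) (S : Finset ℤ) (f : ℤ → ℝ)
    (x : ∀ i, V i) : ℝ :=
  (∑ n ∈ S.filter (fun n => red n = x), f n) / W w x

omit [DecidableEq ι] [∀ i, Fintype (V i)] in
theorem pF_mul {S : Finset ℤ} {f : ℤ → ℝ} (hw : ∀ n ∈ S, f n ≠ 0 → W w (red n) ≠ 0)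
    (x : ∀ i, V i) :
    W w x * pF w red S f x = ∑ n ∈ S.filter (fun n => red n = x), f n := by
  unfold pF
  by_cases hx : W w x = 0
  · rw [hx, zero_mul]
    symm
    refine sum_eq_zero fun n hn => ?_
    rw [mem_filter] at hn
    by_contra hf
    exact hw n hn.1 hf (hn.2 ▸ hx)
  · field_simp

theorem sum_pF {S : Finset ℤ} {f : ℤ → ℝ} (hw : ∀ n ∈ S, f n ≠ 0 → W w (red n) ≠ 0)
    (F : (∀ i, V i) → ℝ) :
    ∑ x, W w x * pF w red S f x * F x = ∑ n ∈ S, f n * F (red n) := by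
  have h1 : ∀ x : ∀ i, V i, W w x * pF w red S f x * F x =
      ∑ n ∈ S.filter (fun n => red n = x), f n * F (red n) := by
    intro x
    rw [pF_mul hw, sum_mul]
    refine sum_congr rfl fun n hn => ?_
    rw [(mem_filter.1 hn).2]
  rw [sum_congr rfl fun x _ => h1 x]
  exact sum_fiberwise S red fun n => f n * F (red n)

/-- the pair sum on the integers -/
def Xp (red : ℤ → ∀ i, V i) (k : ∀ i, V i → V i → ℝ) (S1 S2 : Finset ℤ) (f f' : ℤ → ℝ)
    (B : Finset ι) : ℝ :=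
  ∑ n ∈ S1, ∑ m ∈ S2, f n * f' m * ∏ i ∈ B, k i (red n i) (red m i)

theorem Xp_eq (h1 : ∀ i, ∑ a, w i a = 1) {k : ∀ i, V i → V i → ℝ} {S1 S2 : Finset ℤ}
    {f f' : ℤ → ℝ} (hw : ∀ n ∈ S1, f n ≠ 0 → W w (red n) ≠ 0)
    (hw' : ∀ n ∈ S2, f' n ≠ 0 → W w (red n) ≠ 0) (B : Finset ι) :
    Xp red k S1 S2 f f' B = H365.Ph2 w k B (∑ C ∈ B.powerset, Hc w (pF w red S1 f) C)
      (∑ C ∈ B.powerset, Hc w (pF w red S2 f') C) := by
  rw [H461.sum_Hc, H461.sum_Hc, H365.Ph2_eq_ip (fun i hi => H461.gm_inv hi _), ← H365.pair_eq h1]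
  have h2 : ∀ x : ∀ i, V i, ∑ y, W w x * pF w red S1 f x * (W w y * pF w red S2 f' y) *
      ∏ i ∈ B, k i (x i) (y i) =
      W w x * pF w red S1 f x * ∑ m ∈ S2, f' m * ∏ i ∈ B, k i (x i) (red m i) := by
    intro x
    rw [← sum_pF hw' (fun y => ∏ i ∈ B, k i (x i) (y i)), mul_sum]
    refine sum_congr rfl fun y _ => ?_
    ring
  rw [sum_congr rfl fun x _ => h2 x,
    sum_pF hw (fun x => ∑ m ∈ S2, f' m * ∏ i ∈ B, k i (x i) (red m i))]
  unfold Xp
  refine sum_congr rfl fun n _ => ?_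
  rw [mul_sum]
  refine sum_congr rfl fun m _ => ?_
  ring

/-- weighted energy of the components over a family of sets -/
noncomputable def Eng (w : ∀ i, V i → ℝ) (red : ℤ → ∀ i, V i) (rho : ι → ℝ)
    (D : Finset (Finset ι)) (S : Finset ℤ) (f : ℤ → ℝ) : ℝ :=
  ∑ C ∈ D, (∏ i ∈ C, 2 * rho i) * ip w (Hc w (pF w red S f) C) (Hc w (pF w red S f) C)

theorem Eng_nonneg (h0 : ∀ i a, 0 ≤ w i a) {rho : ι → ℝ} (hr : ∀ i, 0 ≤ rho i)
    (D : Finset (Finset ι)) (S : Finset ℤ) (f : ℤ → ℝ) : 0 ≤ Eng w red rho D S f :=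
  sum_nonneg fun _ _ => mul_nonneg (prod_nonneg fun i _ => mul_nonneg zero_le_two (hr i))
    (H461.ip_self_nonneg h0 _)

/-- sum over the sets of the pair sums -/
theorem sum_Xp_le (h0 : ∀ i a, 0 ≤ w i a) (h1 : ∀ i, ∑ a, w i a = 1)
    {k : ∀ i, V i → V i → ℝ} {c : ι → ℝ} {u u' : ∀ i, V i → ℝ} {s : ∀ i, V i → V i → ℝ}
    {rho e : ι → ℝ} (hK : H365.OB w k c u u' s rho e) (D : Finset (Finset ι))
    (hD : ∀ B ∈ D, ∀ C ⊆ B, C ∈ D) {S1 S2 : Finset ℤ} {f f' : ℤ → ℝ}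
    (hw : ∀ n ∈ S1, f n ≠ 0 → W w (red n) ≠ 0) (hw' : ∀ n ∈ S2, f' n ≠ 0 → W w (red n) ≠ 0) :
    ∑ B ∈ D, |Xp red k S1 S2 f f' B| ≤ Real.exp (2 * ∑ i, e i) *
      (Real.sqrt (Eng w red rho D S1 f) * Real.sqrt (Eng w red rho D S2 f')) := by
  have h2 := H365.onebody_sum_le h0 h1 hK D hD
    (h := Hc w (pF w red S1 f)) (h' := Hc w (pF w red S2 f'))
    (fun C i hi => H461.Hc_inv hi _) (fun C _ i hi => H461.av_Hc h1 hi _)
    (fun C i hi => H461.Hc_inv hi _) (fun C _ i hi => H461.av_Hc h1 hi _)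
    (R := 1) zero_le_one
  simp only [one_pow, one_mul, mul_one] at h2
  rw [sum_congr rfl fun B _ => by rw [Xp_eq h1 hw hw' B]]
  exact h2

end

/-- twisting by a unimodular function: four real pair sums -/
theorem twist_le (S1 S2 : Finset ℤ) (P : ℤ → ℤ → ℝ) (f f' : ℤ → ℝ) (z : ℤ → ℂ) :
    ‖∑ n ∈ S1, ∑ m ∈ S2, ((f n * f' m * P n m : ℝ) : ℂ) * (z n * (starRingEnd ℂ) (z m))‖ ≤
      |∑ n ∈ S1, ∑ m ∈ S2, (f n * (z n).re) * (f' m * (z m).re) * P n m| +
      |∑ n ∈ S1, ∑ m ∈ S2, (f n * (z n).im) * (f' m * (z m).im) * P n m| +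
      (|∑ n ∈ S1, ∑ m ∈ S2, (f n * (z n).im) * (f' m * (z m).re) * P n m| +
      |∑ n ∈ S1, ∑ m ∈ S2, (f n * (z n).re) * (f' m * (z m).im) * P n m|) := by
  refine (Complex.norm_le_abs_re_add_abs_im _).trans (add_le_add ?_ ?_)
  · have h1 : (∑ n ∈ S1, ∑ m ∈ S2, ((f n * f' m * P n m : ℝ) : ℂ) *
        (z n * (starRingEnd ℂ) (z m))).re =
        ∑ n ∈ S1, ∑ m ∈ S2, (f n * (z n).re) * (f' m * (z m).re) * P n m +
        ∑ n ∈ S1, ∑ m ∈ S2, (f n * (z n).im) * (f' m * (z m).im) * P n m := by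
      rw [Complex.re_sum, ← sum_add_distrib]
      refine sum_congr rfl fun n _ => ?_
      rw [Complex.re_sum, ← sum_add_distrib]
      refine sum_congr rfl fun m _ => ?_
      rw [Complex.re_ofReal_mul, Complex.mul_re, Complex.conj_re, Complex.conj_im]
      ring
    rw [h1]
    exact abs_add_le _ _
  · have h1 : (∑ n ∈ S1, ∑ m ∈ S2, ((f n * f' m * P n m : ℝ) : ℂ) *
        (z n * (starRingEnd ℂ) (z m))).im =
        ∑ n ∈ S1, ∑ m ∈ S2, (f n * (z n).im) * (f' m * (z m).re) * P n m -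
        ∑ n ∈ S1, ∑ m ∈ S2, (f n * (z n).re) * (f' m * (z m).im) * P n m := by
      rw [Complex.im_sum, ← sum_sub_distrib]
      refine sum_congr rfl fun n _ => ?_
      rw [Complex.im_sum, ← sum_sub_distrib]
      refine sum_congr rfl fun m _ => ?_
      rw [Complex.im_ofReal_mul, Complex.mul_im, Complex.conj_re, Complex.conj_im]
      ring
    rw [h1]
    exact abs_sub _ _

section
variable {ι : Type*} [Fintype ι] [DecidableEq ι] {V : ι → Type*} [∀ i, Fintype (V i)]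
  [∀ i, DecidableEq (V i)] {w : ∀ i, V i → ℝ} {red : ℤ → ∀ i, V i}

/-- the value of the character at `n` -/
noncomputable def zc (a q : ℕ) (n : ℤ) : ℂ := e (-((n : ℝ) * ((a : ℝ) / q)))

theorem zc_pair (a q : ℕ) (n m : ℤ) :
    e (-(((n - m : ℤ) : ℝ) * ((a : ℝ) / q))) = zc a q n * (starRingEnd ℂ) (zc a q m) := by
  unfold zc
  rw [conj_e, ← e_add]
  congr 1
  push_cast
  ring

/-- energies of the real and of the imaginary part of the twisted weight -/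
noncomputable def EngC (w : ∀ i, V i → ℝ) (red : ℤ → ∀ i, V i) (rho : ι → ℝ)
    (D : Finset (Finset ι)) (S : Finset ℤ) (f : ℤ → ℝ) (a q : ℕ) : ℝ :=
  Eng w red rho D S (fun n => f n * (zc a q n).re) +
    Eng w red rho D S (fun n => f n * (zc a q n).im)

theorem EngC_nonneg (h0 : ∀ i a, 0 ≤ w i a) {rho : ι → ℝ} (hr : ∀ i, 0 ≤ rho i)
    (D : Finset (Finset ι)) (S : Finset ℤ) (f : ℤ → ℝ) (a q : ℕ) :
    0 ≤ EngC w red rho D S f a q :=
  add_nonneg (Eng_nonneg h0 hr D S _) (Eng_nonneg h0 hr D S _)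

/-- the weighted energy over the moduli `m2` -/
noncomputable def Ytop (w : ∀ i, V i → ℝ) (red : ℤ → ∀ i, V i) (rho : ι → ℝ)
    (D : Finset (Finset ι)) (M2 : Finset ℕ) (v : ℕ → ℝ) (S : Finset ℤ) (f : ℤ → ℝ) : ℝ :=
  ∑ m2 ∈ M2, v m2 * ∑ a ∈ (range m2).filter (Nat.Coprime m2), EngC w red rho D S f a m2

omit [Fintype ι] [DecidableEq ι] [∀ i, Fintype (V i)] [∀ i, DecidableEq (V i)] in
theorem FB_le (g : ℤ[X]) (PP : Finset ℕ) (kw : ℕ → ℕ → ℝ)
    (hG : ∀ (q : ℕ) (a : ℤ), 1 ≤ q → IsCoprime a (q : ℤ) → ‖GamN g PP a q‖ ≤ kapProd kw q)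
    (k : ∀ i, V i → V i → ℝ) (S1 S2 : Finset ℤ) (f f' : ℤ → ℝ) (B : Finset ι) {q : ℕ}
    (hq : 1 ≤ q) :
    ‖FB g PP S1 S2 f f' (fun i n m => k i (red n i) (red m i)) B q‖ ≤
      ∑ a ∈ (range q).filter (Nat.Coprime q), kapProd kw q *
        (|Xp red k S1 S2 (fun n => f n * (zc a q n).re) (fun m => f' m * (zc a q m).re) B| +
          |Xp red k S1 S2 (fun n => f n * (zc a q n).im) (fun m => f' m * (zc a q m).im) B| +
          (|Xp red k S1 S2 (fun n => f n * (zc a q n).im) (fun m => f' m * (zc a q m).re) B| +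
          |Xp red k S1 S2 (fun n => f n * (zc a q n).re) (fun m => f' m * (zc a q m).im) B|)) := by
  have h1 : FB g PP S1 S2 f f' (fun i n m => k i (red n i) (red m i)) B q =
      ∑ a ∈ (range q).filter (Nat.Coprime q), GamN g PP a q *
        ∑ n ∈ S1, ∑ m ∈ S2, ((f n * f' m * ∏ i ∈ B, k i (red n i) (red m i) : ℝ) : ℂ) *
          (zc a q n * (starRingEnd ℂ) (zc a q m)) := by
    unfold FB Ram cR
    have h2 : ∀ n ∈ S1, ∀ m ∈ S2,
        ((f n * f' m * ∏ i ∈ B, k i (red n i) (red m i) : ℝ) : ℂ) *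
          ∑ a ∈ (range q).filter (Nat.Coprime q),
            GamN g PP a q * e (-(((n - m : ℤ) : ℝ) * ((a : ℝ) / q))) =
        ∑ a ∈ (range q).filter (Nat.Coprime q), GamN g PP a q *
          (((f n * f' m * ∏ i ∈ B, k i (red n i) (red m i) : ℝ) : ℂ) *
          (zc a q n * (starRingEnd ℂ) (zc a q m))) := by
      intro n _ m _
      rw [mul_sum]
      refine sum_congr rfl fun a _ => ?_
      rw [zc_pair]
      ring
    rw [sum_congr rfl fun n hn => sum_congr rfl fun m hm => h2 n hn m hm]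
    rw [sum_congr rfl fun n _ => sum_comm, sum_comm]
    refine sum_congr rfl fun a _ => ?_
    rw [mul_sum]
    refine sum_congr rfl fun n _ => ?_
    rw [mul_sum]
  rw [h1]
  refine (norm_sum_le _ _).trans (sum_le_sum fun a ha => ?_)
  rw [norm_mul]
  have hcop : IsCoprime (a : ℤ) (q : ℤ) :=
    Nat.isCoprime_iff_coprime.2 (mem_filter.1 ha).2.symm
  refine mul_le_mul (hG q a hq hcop) ?_ (norm_nonneg _) ((norm_nonneg _).trans (hG q a hq hcop))
  exact twist_le S1 S2 (fun n m => ∏ i ∈ B, k i (red n i) (red m i)) f f' (zc a q)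

/-- one character: the sum over the sets -/
theorem four_le (h0 : ∀ i a, 0 ≤ w i a) (h1 : ∀ i, ∑ a, w i a = 1)
    {k : ∀ i, V i → V i → ℝ} {c : ι → ℝ} {u u' : ∀ i, V i → ℝ} {s : ∀ i, V i → V i → ℝ}
    {rho e : ι → ℝ} (hK : H365.OB w k c u u' s rho e) (D : Finset (Finset ι))
    (hD : ∀ B ∈ D, ∀ C ⊆ B, C ∈ D) {S1 S2 : Finset ℤ} {f f' : ℤ → ℝ}
    (hw : ∀ n ∈ S1, f n ≠ 0 → W w (red n) ≠ 0) (hw' : ∀ n ∈ S2, f' n ≠ 0 → W w (red n) ≠ 0)
    (a q : ℕ) :
    ∑ B ∈ D,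
        (|Xp red k S1 S2 (fun n => f n * (zc a q n).re) (fun m => f' m * (zc a q m).re) B| +
          |Xp red k S1 S2 (fun n => f n * (zc a q n).im) (fun m => f' m * (zc a q m).im) B| +
          (|Xp red k S1 S2 (fun n => f n * (zc a q n).im) (fun m => f' m * (zc a q m).re) B| +
          |Xp red k S1 S2 (fun n => f n * (zc a q n).re) (fun m => f' m * (zc a q m).im) B|)) ≤
      2 * Real.exp (2 * ∑ i, e i) * (Real.sqrt (EngC w red rho D S1 f a q) *
        Real.sqrt (EngC w red rho D S2 f' a q)) := by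
  have hr : ∀ n ∈ S1, (fun n => f n * (zc a q n).re) n ≠ 0 → W w (red n) ≠ 0 :=
    fun n hn h => hw n hn fun h' => h (by simp [h'])
  have hi : ∀ n ∈ S1, (fun n => f n * (zc a q n).im) n ≠ 0 → W w (red n) ≠ 0 :=
    fun n hn h => hw n hn fun h' => h (by simp [h'])
  have hr' : ∀ n ∈ S2, (fun n => f' n * (zc a q n).re) n ≠ 0 → W w (red n) ≠ 0 :=
    fun n hn h => hw' n hn fun h' => h (by simp [h'])
  have hi' : ∀ n ∈ S2, (fun n => f' n * (zc a q n).im) n ≠ 0 → W w (red n) ≠ 0 :=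
    fun n hn h => hw' n hn fun h' => h (by simp [h'])
  obtain ⟨x, hx⟩ : ∃ x, x = Eng w red rho D S1 (fun n => f n * (zc a q n).re) := ⟨_, rfl⟩
  obtain ⟨y, hy⟩ : ∃ y, y = Eng w red rho D S1 (fun n => f n * (zc a q n).im) := ⟨_, rfl⟩
  obtain ⟨x', hx'⟩ : ∃ x', x' = Eng w red rho D S2 (fun n => f' n * (zc a q n).re) := ⟨_, rfl⟩
  obtain ⟨y', hy'⟩ : ∃ y', y' = Eng w red rho D S2 (fun n => f' n * (zc a q n).im) := ⟨_, rfl⟩
  have hx0 : 0 ≤ x := hx ▸ Eng_nonneg h0 hK.rho0 D S1 _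
  have hy0 : 0 ≤ y := hy ▸ Eng_nonneg h0 hK.rho0 D S1 _
  have hx0' : 0 ≤ x' := hx' ▸ Eng_nonneg h0 hK.rho0 D S2 _
  have hy0' : 0 ≤ y' := hy' ▸ Eng_nonneg h0 hK.rho0 D S2 _
  have k1 := sum_Xp_le h0 h1 hK D hD hr hr'
  have k2 := sum_Xp_le h0 h1 hK D hD hi hi'
  have k3 := sum_Xp_le h0 h1 hK D hD hi hr'
  have k4 := sum_Xp_le h0 h1 hK D hD hr hi'
  rw [← hx, ← hx'] at k1
  rw [← hy, ← hy'] at k2
  rw [← hy, ← hx'] at k3
  rw [← hx, ← hy'] at k4
  unfold EngC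
  rw [← hx, ← hy, ← hx', ← hy', sum_add_distrib, sum_add_distrib, sum_add_distrib]
  obtain ⟨E, hE⟩ : ∃ E, E = Real.exp (2 * ∑ i, e i) := ⟨_, rfl⟩
  have hE0 : 0 ≤ E := hE ▸ (Real.exp_pos _).le
  rw [← hE] at k1 k2 k3 k4 ⊢
  have h2 : Real.sqrt x + Real.sqrt y ≤ Real.sqrt 2 * Real.sqrt (x + y) := by
    rw [← Real.sqrt_mul (by norm_num)]
    apply Real.le_sqrt_of_sq_le
    nlinarith [Real.sq_sqrt hx0, Real.sq_sqrt hy0, sq_nonneg (Real.sqrt x - Real.sqrt y)]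
  have h3 : Real.sqrt x' + Real.sqrt y' ≤ Real.sqrt 2 * Real.sqrt (x' + y') := by
    rw [← Real.sqrt_mul (by norm_num)]
    apply Real.le_sqrt_of_sq_le
    nlinarith [Real.sq_sqrt hx0', Real.sq_sqrt hy0', sq_nonneg (Real.sqrt x' - Real.sqrt y')]
  have h4 : (Real.sqrt x + Real.sqrt y) * (Real.sqrt x' + Real.sqrt y') ≤
      2 * (Real.sqrt (x + y) * Real.sqrt (x' + y')) := by
    refine (mul_le_mul h2 h3 (by positivity) (by positivity)).trans (le_of_eq ?_)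
    have h5 : Real.sqrt 2 * Real.sqrt 2 = 2 := Real.mul_self_sqrt (by norm_num)
    calc _ = (Real.sqrt 2 * Real.sqrt 2) * (Real.sqrt (x + y) * Real.sqrt (x' + y')) := by ring
      _ = _ := by rw [h5]
  have h5 := mul_le_mul_of_nonneg_left h4 hE0
  linarith

/-- **S.7, reduction to energies** -/
theorem top_red (g : ℤ[X]) (PP : Finset ℕ) (kw : ℕ → ℕ → ℝ)
    (hG : ∀ (q : ℕ) (a : ℤ), 1 ≤ q → IsCoprime a (q : ℤ) → ‖GamN g PP a q‖ ≤ kapProd kw q)
    (h0 : ∀ i a, 0 ≤ w i a) (h1 : ∀ i, ∑ a, w i a = 1)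
    {k : ∀ i, V i → V i → ℝ} {c : ι → ℝ} {u u' : ∀ i, V i → ℝ} {s : ∀ i, V i → V i → ℝ}
    {rho e : ι → ℝ} (hK : H365.OB w k c u u' s rho e) (D : Finset (Finset ι))
    (hD : ∀ B ∈ D, ∀ C ⊆ B, C ∈ D) {S1 S2 : Finset ℤ} {f f' : ℤ → ℝ}
    (hw : ∀ n ∈ S1, f n ≠ 0 → W w (red n) ≠ 0) (hw' : ∀ n ∈ S2, f' n ≠ 0 → W w (red n) ≠ 0)
    (M2 : Finset ℕ) (hM2 : ∀ m ∈ M2, 1 ≤ m) (om : ℕ → ℝ) (hom : ∀ m ∈ M2, 0 ≤ om m) :
    ∑ B ∈ D, ∑ m2 ∈ M2,
        om m2 * ‖FB g PP S1 S2 f f' (fun i n m => k i (red n i) (red m i)) B m2‖ ≤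
      2 * Real.exp (2 * ∑ i, e i) *
        (Real.sqrt (Ytop w red rho D M2 (fun m => om m * kapProd kw m) S1 f) *
          Real.sqrt (Ytop w red rho D M2 (fun m => om m * kapProd kw m) S2 f')) := by
  have hkap : ∀ m ∈ M2, 0 ≤ kapProd kw m := fun m hm =>
    (norm_nonneg _).trans (hG m 1 (hM2 m hm) isCoprime_one_left)
  obtain ⟨E, hE⟩ : ∃ E, E = 2 * Real.exp (2 * ∑ i, e i) := ⟨_, rfl⟩
  have hE0 : 0 ≤ E := by
    rw [hE]
    positivity
  have hfour : ∀ a q : ℕ, ∑ B ∈ D,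
        (|Xp red k S1 S2 (fun n => f n * (zc a q n).re) (fun m => f' m * (zc a q m).re) B| +
          |Xp red k S1 S2 (fun n => f n * (zc a q n).im) (fun m => f' m * (zc a q m).im) B| +
          (|Xp red k S1 S2 (fun n => f n * (zc a q n).im) (fun m => f' m * (zc a q m).re) B| +
          |Xp red k S1 S2 (fun n => f n * (zc a q n).re) (fun m => f' m * (zc a q m).im) B|)) ≤
      E * (Real.sqrt (EngC w red rho D S1 f a q) *
        Real.sqrt (EngC w red rho D S2 f' a q)) := fun a q => by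
    rw [hE]
    exact four_le h0 h1 hK D hD hw hw' a q
  rw [← hE]
  -- exchange of the sums
  rw [sum_comm]
  have a1 : ∀ m2 ∈ M2, ∑ B ∈ D,
      om m2 * ‖FB g PP S1 S2 f f' (fun i n m => k i (red n i) (red m i)) B m2‖ ≤
      ∑ a ∈ (range m2).filter (Nat.Coprime m2), E *
        ((om m2 * kapProd kw m2) * (Real.sqrt (EngC w red rho D S1 f a m2) *
        Real.sqrt (EngC w red rho D S2 f' a m2))) := by
    intro m2 hm2
    rw [← mul_sum]
    have b1 : ∑ B ∈ D, ‖FB g PP S1 S2 f f' (fun i n m => k i (red n i) (red m i)) B m2‖ ≤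
        ∑ a ∈ (range m2).filter (Nat.Coprime m2), kapProd kw m2 *
          (E * (Real.sqrt (EngC w red rho D S1 f a m2) *
        Real.sqrt (EngC w red rho D S2 f' a m2))) := by
      refine (sum_le_sum fun B _ => FB_le g PP kw hG k S1 S2 f f' B (hM2 m2 hm2)).trans ?_
      rw [sum_comm]
      refine sum_le_sum fun a _ => ?_
      rw [← mul_sum]
      exact mul_le_mul_of_nonneg_left (hfour a m2) (hkap m2 hm2)
    refine (mul_le_mul_of_nonneg_left b1 (hom m2 hm2)).trans (le_of_eq ?_)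
    rw [mul_sum]
    refine sum_congr rfl fun a _ => ?_
    ring
  refine (sum_le_sum a1).trans ?_
  -- Cauchy-Schwarz over the pairs
  have a2 : ∑ m2 ∈ M2, ∑ a ∈ (range m2).filter (Nat.Coprime m2), E *
        ((om m2 * kapProd kw m2) * (Real.sqrt (EngC w red rho D S1 f a m2) *
        Real.sqrt (EngC w red rho D S2 f' a m2))) =
      E *
      ∑ t ∈ M2.sigma (fun m2 => (range m2).filter (Nat.Coprime m2)),
        (Real.sqrt ((om t.1 * kapProd kw t.1) * EngC w red rho D S1 f t.2 t.1) *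
        Real.sqrt ((om t.1 * kapProd kw t.1) * EngC w red rho D S2 f' t.2 t.1)) := by
    rw [sum_sigma, mul_sum]
    refine sum_congr rfl fun m2 hm2 => ?_
    rw [mul_sum]
    refine sum_congr rfl fun a _ => ?_
    have hv : 0 ≤ om m2 * kapProd kw m2 := mul_nonneg (hom m2 hm2) (hkap m2 hm2)
    simp only
    rw [Real.sqrt_mul hv, Real.sqrt_mul hv]
    have h5 : Real.sqrt (om m2 * kapProd kw m2) * Real.sqrt (om m2 * kapProd kw m2) =
      om m2 * kapProd kw m2 := Real.mul_self_sqrt hv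
    calc _ = E *
        ((Real.sqrt (om m2 * kapProd kw m2) * Real.sqrt (om m2 * kapProd kw m2)) *
        (Real.sqrt (EngC w red rho D S1 f a m2) * Real.sqrt (EngC w red rho D S2 f' a m2))) := by
          rw [h5]
      _ = _ := by ring
  rw [a2]
  refine mul_le_mul_of_nonneg_left ?_ hE0
  have a3 := Real.sum_mul_le_sqrt_mul_sqrt (M2.sigma (fun m2 => (range m2).filter (Nat.Coprime m2)))
    (fun t => Real.sqrt ((om t.1 * kapProd kw t.1) * EngC w red rho D S1 f t.2 t.1))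
    (fun t => Real.sqrt ((om t.1 * kapProd kw t.1) * EngC w red rho D S2 f' t.2 t.1))
  refine a3.trans (le_of_eq ?_)
  have a4 : ∀ (S : Finset ℤ) (f : ℤ → ℝ),
      ∑ t ∈ M2.sigma (fun m2 => (range m2).filter (Nat.Coprime m2)),
        Real.sqrt ((om t.1 * kapProd kw t.1) * EngC w red rho D S f t.2 t.1) ^ 2 =
      Ytop w red rho D M2 (fun m => om m * kapProd kw m) S f := by
    intro S f
    unfold Ytop
    rw [sum_sigma]
    refine sum_congr rfl fun m2 hm2 => ?_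
    rw [mul_sum]
    refine sum_congr rfl fun a _ => ?_
    exact Real.sq_sqrt (mul_nonneg (mul_nonneg (hom m2 hm2) (hkap m2 hm2))
      (EngC_nonneg h0 hK.rho0 D S f a m2))
  rw [a4, a4]

end

end Vale.Agent.P042.H944
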