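import Vale.Agent.P042.H944.TopT3
import Vale.Agent.P042.H944.TopRed
import Vale.Agent.P042.H482.LeafM

set_option autoImplicit false

/-!
P042, target S, LEAF T from the bound of the energies of one window.
-/

namespace Vale.Agent.P042.H944

open Polynomial Finset Vale.Agent.P042.SS Vale.Agent.P042.H74 Vale.Agent.P042.H245
  Vale.Agent.P042.H452 Vale.Agent.P042.H419 Vale.Agent.P042.H359

set_option linter.unusedSectionVars false

/-- **the energies of one window of target S** -/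
def WinS : Prop := ∀ (k R C : ℕ) (c κ th : ℝ), 2 ≤ k → 1 ≤ R → 40 ≤ C → 0 < c → 0 < κ →
  κ ≤ 1 / 8 → 0 < th → ∃ KW P0 : ℝ, 0 ≤ KW ∧ ∀ P : ℝ, P0 ≤ P →
  ∀ (ι : Type) [Fintype ι] [DecidableEq ι] (prm : ι → ℕ) [∀ i, NeZero (prm i)] (f : ℤ[X])
    (N' : ℕ) (mu : ℕ → ℝ) (q1 z0 Hw h0 c1 c2 : ℕ), PrmS 22 22 P prm →
    SObj k R 22 C κ P f N' mu q1 z0 Hw h0 c1 c2 →
  ∀ (PP : Finset ℕ) (kw : ℕ → ℕ → ℝ), KwT k c (Ts 22 P) PP (fer f q1 z0) kw →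
  ∀ rho : ι → ℝ, (∀ i, 0 ≤ rho i) → (∀ i, rho i ≤ 192 * k / √(prm i)) →
  ∀ D m0 M0 : ℕ, NumD k th P D m0 → (M0 : ℝ) ≤ Real.exp (P / Real.log P ^ 2) →
  ∀ cc u v : ℕ, cc < qnul f q1 z0 → 1 ≤ u → v ≤ N' → v + 1 - u = h0 →
    Ytop (H419.wS prm N' mu) (redZ prm) rho (low ι m0)
      ((MM (Ts 22 P) prm M0).filter (fun m2 => 1 < m2)) (fun m => kapProd kw m)
      (cellZ (qnul f q1 z0) cc u v) (H419.GG N' mu) ≤
      KW / Real.log P * ((N' : ℝ) / qnul f q1 z0) ^ 2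

section
variable {ι : Type} [Fintype ι] [DecidableEq ι] {prm : ι → ℕ} [∀ i, NeZero (prm i)] {N' : ℕ}
  {mu : ℕ → ℝ}

theorem GG_nonneg (hlaw : H599.Law mu 1 N') (n : ℤ) (hn : n ∈ Icc (1 : ℤ) N') :
    0 ≤ H419.GG N' mu n := G_nonneg (G := H419.GG N' mu) (fun _ => rfl) hlaw n hn

/-- the points of the support have positive reference weight -/
theorem W_wS_ne (hp : ∀ i, (prm i).Prime) (hlaw : H599.Law mu 1 N') {n : ℤ}
    (hn : n ∈ Icc (1 : ℤ) N') (h0 : H419.GG N' mu n ≠ 0) :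
    H461.W (H419.wS prm N' mu) (redZ prm n) ≠ 0 := by
  classical
  rw [H482.wS_same hp hlaw]
  unfold H461.W
  rw [prod_ne_zero_iff]
  intro i _
  unfold H359.wS
  rw [m1_push]
  have hN : 0 < N' := hlaw.pos
  have h1 : ∑ n ∈ Icc (1 : ℤ) N', H419.GG N' mu n = N' := sum_all (fun _ => rfl) hlaw
  rw [h1]
  have h2 : 0 < H419.GG N' mu n := lt_of_le_of_ne (GG_nonneg hlaw n hn) h0.symm
  have h3 : H419.GG N' mu n ≤ ∑ m ∈ Icc (1 : ℤ) N',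
      if redZ prm m i = redZ prm n i then H419.GG N' mu m else 0 := by
    refine le_trans (le_of_eq ?_) (single_le_sum (f := fun m =>
      if redZ prm m i = redZ prm n i then H419.GG N' mu m else 0) (fun m hm => ?_) hn)
    · simp only [if_true]
    · split_ifs
      · exact GG_nonneg hlaw m hm
      · exact le_rfl
  have h4 : (0 : ℝ) < N' := by exact_mod_cast hN
  exact (div_pos (h2.trans_le h3) h4).ne'

theorem wS_prob (hp : ∀ i, (prm i).Prime) (hlaw : H599.Law mu 1 N') :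
    (∀ i a, 0 ≤ H419.wS prm N' mu i a) ∧ ∀ i, ∑ a, H419.wS prm N' mu i a = 1 := by
  rw [H482.wS_same hp hlaw]
  have h1 : ∑ n ∈ Icc (1 : ℤ) N', H419.GG N' mu n = N' := sum_all (fun _ => rfl) hlaw
  have hN : (0 : ℝ) < N' := by exact_mod_cast hlaw.pos
  have H : H779.Ab.Ref (H779.m1 (push (redZ prm) (Icc (1 : ℤ) N') (H419.GG N' mu)))
      (push (redZ prm) (Icc (1 : ℤ) N') (H419.GG N' mu)) :=
    push_ref (Finset.Subset.refl _) (GG_nonneg hlaw) (by rw [h1]; exact hN)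
  exact ⟨H.w_nonneg, H.w_sum⟩

end

theorem leafT_of (hW : WinS) : LeafT 2 := by
  intro k R hk hR
  refine ⟨22, 22, 40, by norm_num, by norm_num, fun C κ th hC hκ hκ8 hth =>
    ⟨1, one_pos, le_rfl, ?_⟩⟩
  obtain ⟨c, kap, hc, hc4, hkw⟩ := kwC k R hk hR
  obtain ⟨P1, hP1⟩ := hkw 22 22 2 (by norm_num) le_rfl
  obtain ⟨KW, P2, hKW, hP2⟩ := hW k R C c κ th hk hR hC hc hκ hκ8 hth
  refine ⟨max (max P1 P2) (Real.exp (1 + 128000000 * KW)), fun P hP ι _ _ prm _ f N' mu q1 z0 Hw h0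
    c1 c2 HP HS K e e' u u' s0 rho ee hK D m0 M0 hD hM0 => ?_⟩
  have hPP1 : P1 ≤ P := (le_max_left _ _).trans ((le_max_left _ _).trans hP)
  have hPP2 : P2 ≤ P := (le_max_right _ _).trans ((le_max_left _ _).trans hP)
  have hPP3 : Real.exp (1 + 128000000 * KW) ≤ P := (le_max_right _ _).trans hP
  have hP0 : 0 < P := lt_of_lt_of_le (Real.exp_pos _) hPP3
  have hl : 1 + 128000000 * KW ≤ Real.log P := (Real.le_log_iff_exp_le hP0).2 hPP3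
  have hl0 : 0 < Real.log P := by linarith
  obtain ⟨hT, -, -, -⟩ := hP1 P hPP1 ι prm f C N' κ mu q1 z0 Hw h0 c1 c2 HP HS
  obtain ⟨g, hg⟩ : ∃ g, g = fer f q1 z0 := ⟨_, rfl⟩
  have hlaw := HS.st.law
  have hwN := HS.wN
  have hh0 := HS.h0pos
  obtain ⟨hw0, hw1⟩ := wS_prob (prm := prm) HP.prime hlaw
  have hS1 : cS1 f q1 z0 Hw h0 c1 ⊆ Icc (1 : ℤ) N' :=
    cellZ_sub (by omega) hwN
  have hS2 : cS2 f q1 z0 h0 c2 ⊆ Icc (1 : ℤ) N' :=
    cellZ_sub le_rfl (by omega)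
  have key := top_red (red := redZ prm) (w := H419.wS prm N' mu) (fer f q1 z0)
    (PPf 2 (fer f q1 z0) P) _ hT.hG hw0 hw1 hK.ob (low ι m0) (low_down m0)
    (S1 := cS1 f q1 z0 Hw h0 c1) (S2 := cS2 f q1 z0 h0 c2) (f := H419.GG N' mu) (f' := H419.GG N' mu)
    (fun n hn h => W_wS_ne HP.prime hlaw (hS1 hn) h)
    (fun n hn h => W_wS_ne HP.prime hlaw (hS2 hn) h)
    ((MM (Ts 22 P) prm M0).filter (fun m2 => 1 < m2))
    (fun m hm => (mem_filter.1 hm).2.le) (fun _ => 1) (fun _ _ => zero_le_one)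
  simp only [one_mul] at key
  have hrho : ∀ i, rho i ≤ 192 * k / √(prm i) := fun i => by
    refine (hK.rho_le i).trans (le_of_eq ?_)
    ring
  have hM0' : (M0 : ℝ) ≤ Real.exp (P / Real.log P ^ 2) := by
    rw [hM0, one_mul]
    exact Nat.floor_le (Real.exp_pos _).le
  have Y1 := hP2 P hPP2 ι prm f N' mu q1 z0 Hw h0 c1 c2 HP HS _ _ hT rho hK.ob.rho0 hrho D m0 M0 hD
    hM0' c1 (3 * Hw + h0 + 1) (3 * Hw + 2 * h0) HS.c1lt (by omega) hwN (by omega)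
  have Y2 := hP2 P hPP2 ι prm f N' mu q1 z0 Hw h0 c1 c2 HP HS _ _ hT rho hK.ob.rho0 hrho D m0 M0 hD
    hM0' c2 1 h0 HS.c2lt le_rfl (by omega) (by omega)
  refine key.trans ?_
  -- the numbers
  have hqn : (0 : ℝ) < qnul f q1 z0 := by
    exact_mod_cast qnul_pos (z0 : ℤ) HS.tiny.q1_pos
  have hN1 : (N' : ℝ) ≤ 1000 * h0 := by exact_mod_cast HS.w1000
  obtain ⟨X, hX⟩ : ∃ X : ℝ, X = (N' : ℝ) / qnul f q1 z0 := ⟨_, rfl⟩
  obtain ⟨m1, hm1⟩ : ∃ m : ℝ, m = ∑ n ∈ cS1 f q1 z0 Hw h0 c1, H419.GG N' mu n := ⟨_, rfl⟩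
  obtain ⟨m2, hm2⟩ : ∃ m : ℝ, m = ∑ n ∈ cS2 f q1 z0 h0 c2, H419.GG N' mu n := ⟨_, rfl⟩
  obtain ⟨L, hL⟩ : ∃ L : ℝ, L = Real.log P := ⟨_, rfl⟩
  have hX0 : 0 ≤ X := by
    rw [hX]
    positivity
  have hXm1 : X ≤ 2000 * m1 := by
    have h1 := HS.m1
    rw [hX, div_le_iff₀ hqn, hm1]
    have h2 : (h0 : ℝ) ≤ 2 * (qnul f q1 z0 * ∑ n ∈ cS1 f q1 z0 Hw h0 c1, H419.GG N' mu n) := by
      have h3 : (h0 : ℝ) / 2 ≤ qnul f q1 z0 * ∑ n ∈ cS1 f q1 z0 Hw h0 c1, H419.GG N' mu n := h1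
      linarith
    nlinarith
  have hXm2 : X ≤ 2000 * m2 := by
    have h1 := HS.m2
    rw [hX, div_le_iff₀ hqn, hm2]
    have h2 : (h0 : ℝ) ≤ 2 * (qnul f q1 z0 * ∑ n ∈ cS2 f q1 z0 h0 c2, H419.GG N' mu n) := by
      have h3 : (h0 : ℝ) / 2 ≤ qnul f q1 z0 * ∑ n ∈ cS2 f q1 z0 h0 c2, H419.GG N' mu n := h1
      linarith
    nlinarith
  rw [← hm1, ← hm2]
  rw [← hX, ← hL] at Y1 Y2
  rw [← hL] at hl hl0
  have hm10 : 0 ≤ m1 := by linarith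
  have hm20 : 0 ≤ m2 := by linarith
  have ha : 0 ≤ KW / L := div_nonneg hKW hl0.le
  have hs : ∀ Y : ℝ, Y ≤ KW / L * X ^ 2 → √Y ≤ √(KW / L) * X := by
    intro Y hY
    refine (Real.sqrt_le_sqrt hY).trans (le_of_eq ?_)
    rw [Real.sqrt_mul ha, Real.sqrt_sq hX0]
  have hprod := mul_le_mul (hs _ Y1) (hs _ Y2) (Real.sqrt_nonneg _)
    (mul_nonneg (Real.sqrt_nonneg _) hX0)
  have hsq : √(KW / L) * X * (√(KW / L) * X) = KW / L * X ^ 2 := by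
    have := Real.mul_self_sqrt ha
    calc √(KW / L) * X * (√(KW / L) * X) = (√(KW / L) * √(KW / L)) * X ^ 2 := by ring
      _ = _ := by rw [this]
  rw [hsq] at hprod
  have hexp : 2 * Real.exp (2 * ∑ i, ee i) ≤ 4 := by
    have h1 : 2 * ∑ i, ee i ≤ 1 / 16 := by linarith [hK.see]
    have h2 : Real.exp (1 / 16) ≤ 2 := by
      have h3 := Real.add_one_le_exp (-(1 / 16 : ℝ))
      have h4 : Real.exp (1 / 16) * Real.exp (-(1 / 16)) = 1 := by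
        rw [← Real.exp_add]
        norm_num
      nlinarith [Real.exp_pos (1 / 16 : ℝ)]
    linarith [Real.exp_le_exp.2 h1]
  have hXX : X ^ 2 ≤ 4000000 * (m1 * m2) := by
    calc X ^ 2 = X * X := by ring
      _ ≤ (2000 * m1) * (2000 * m2) := mul_le_mul hXm1 hXm2 hX0 (by linarith)
      _ = _ := by ring
  have hmm : 0 ≤ m1 * m2 := mul_nonneg hm10 hm20
  have h16 : 16000000 * (KW / L) ≤ 1 / 8 := by
    rw [mul_div_assoc', div_le_iff₀ hl0]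
    linarith
  refine (mul_le_mul hexp hprod (mul_nonneg (Real.sqrt_nonneg _) (Real.sqrt_nonneg _))
    (by norm_num)).trans ?_
  calc 4 * (KW / L * X ^ 2) ≤ 4 * (KW / L * (4000000 * (m1 * m2))) := by gcongr
    _ = 16000000 * (KW / L) * (m1 * m2) := by ring
    _ ≤ 1 / 8 * (m1 * m2) := mul_le_mul_of_nonneg_right h16 hmm

end Vale.Agent.P042.H944
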