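import Vale.Agent.P042.H944.SeamNum

set_option autoImplicit false

/-!
P042, seam, power regime: the numerical inequalities (Rankin parameter `P ^ (g1 / 2)`).
-/

namespace Vale.Agent.P042.H944

open Finset

/-- powers of `P` below the first are absorbed -/
theorem ev_rpow_le (b ε : ℝ) (hb : b < 1) (hε : 0 < ε) :
    ∀ᶠ P : ℝ in Filter.atTop, P ^ b ≤ ε * P := by
  have h := (tendsto_rpow_neg_atTop (show 0 < 1 - b by linarith)).eventually_le_const hε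
  filter_upwards [h, Filter.eventually_gt_atTop 0] with P h1 h2
  have h3 : P ^ b = P ^ (-(1 - b)) * P := by
    rw [← Real.rpow_add_one h2.ne']
    congr 1
    ring
  rw [h3]
  exact mul_le_mul_of_nonneg_right h1 h2.le

theorem ev_log_le (ε : ℝ) (hε : 0 < ε) : ∀ᶠ P : ℝ in Filter.atTop, Real.log P ≤ ε * P := by
  have h := Real.isLittleO_log_id_atTop.bound hε
  filter_upwards [h, Filter.eventually_ge_atTop 1] with P h1 h2
  rw [Real.norm_eq_abs, id, Real.norm_eq_abs, abs_of_nonneg (show (0 : ℝ) ≤ P by linarith)] at h1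
  exact (le_abs_self _).trans h1

theorem ev_const_le (K ε : ℝ) (hε : 0 < ε) : ∀ᶠ P : ℝ in Filter.atTop, K ≤ ε * P := by
  filter_upwards [Filter.eventually_ge_atTop (K / ε)] with P h
  rw [div_le_iff₀ hε] at h
  linarith

/-- **numbers of the seam, power regime** -/
theorem seam_numF (g1 θ cδ κ κ2 C2 c0 : ℝ) (hg1 : 0 < g1) (hc0 : 0 < c0)
    (hC2 : 1 ≤ C2) (hκ : 2 * κ + κ2 < g1 * θ / 2) (hκ' : 2 * κ + κ2 < cδ) :
    ∃ P0 : ℝ, ∀ P : ℝ, P0 ≤ P → ∀ (m0 : ℕ) (N' A qn δ S mm : ℝ), 0 ≤ S → S ≤ P ^ (1 - g1) →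
      θ * P / Real.log P ≤ m0 + 1 → 0 ≤ A → A ≤ Real.exp (κ * P) → 1 ≤ qn → qn ≤ C2 →
      0 ≤ δ → δ ≤ Real.exp (-(cδ * P)) → (c0 * N' / qn) ^ 2 ≤ mm →
      4 * N' ^ 2 * A ^ 2 * ((P ^ (g1 / 2))⁻¹ ^ m0 * Real.exp (P ^ (g1 / 2) * S) +
        δ * Real.exp S) ≤ Real.exp (-(κ2 * P)) * mm := by
  -- the room
  obtain ⟨ε, hε0, hε1, hε2⟩ : ∃ ε : ℝ, 0 < ε ∧ 4 * ε ≤ g1 * θ / 2 - (2 * κ + κ2) ∧
      4 * ε ≤ cδ - (2 * κ + κ2) := by
    refine ⟨min (g1 * θ / 2 - (2 * κ + κ2)) (cδ - (2 * κ + κ2)) / 4, ?_, ?_, ?_⟩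
    · have : 0 < min (g1 * θ / 2 - (2 * κ + κ2)) (cδ - (2 * κ + κ2)) :=
        lt_min (by linarith) (by linarith)
      linarith
    · have := min_le_left (g1 * θ / 2 - (2 * κ + κ2)) (cδ - (2 * κ + κ2))
      linarith
    · have := min_le_right (g1 * θ / 2 - (2 * κ + κ2)) (cδ - (2 * κ + κ2))
      linarith
  obtain ⟨K, hK⟩ : ∃ K : ℝ, K = 8 * (C2 / c0) ^ 2 := ⟨_, rfl⟩
  have hK0 : 0 < K := by
    rw [hK]
    positivity
  have key : ∀ᶠ P : ℝ in Filter.atTop, 3 ≤ P ∧ P ^ (1 - g1 / 2) ≤ ε * P ∧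
      P ^ (1 - g1) ≤ ε * P ∧ g1 / 2 * Real.log P ≤ ε * P ∧ Real.log K ≤ ε * P := by
    have hg : 0 < 2 * ε / g1 := by positivity
    filter_upwards [Filter.eventually_ge_atTop 3, ev_rpow_le (1 - g1 / 2) ε (by linarith) hε0,
      ev_rpow_le (1 - g1) ε (by linarith) hε0, ev_log_le (2 * ε / g1) hg,
      ev_const_le (Real.log K) ε hε0] with P h1 h2 h3 h4 h5
    refine ⟨h1, h2, h3, ?_, h5⟩
    have h6 := mul_le_mul_of_nonneg_left h4 (show 0 ≤ g1 / 2 by positivity)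
    refine h6.trans (le_of_eq ?_)
    field_simp
  obtain ⟨P0, hP0⟩ := Filter.eventually_atTop.1 key
  refine ⟨P0, fun P hP m0 N' A qn δ S mm hS0 hS hm hA0 hA hq1 hq hδ0 hδ hmm => ?_⟩
  obtain ⟨h1, h2, h3, h4, h5⟩ := hP0 P hP
  have hPp : 0 < P := by linarith
  have hlog : 0 < Real.log P := Real.log_pos (by linarith)
  have hqp : 0 < qn := by linarith
  -- the masses
  have hN : N' ^ 2 ≤ (C2 / c0) ^ 2 * mm := by
    have e1 : N' ^ 2 = (qn / c0) ^ 2 * (c0 * N' / qn) ^ 2 := by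
      field_simp
    rw [e1]
    have e2 : qn / c0 ≤ C2 / c0 := div_le_div_of_nonneg_right hq hc0.le
    exact mul_le_mul (pow_le_pow_left₀ (by positivity) e2 2) hmm (sq_nonneg _) (by positivity)
  have hmm0 : 0 ≤ mm := (sq_nonneg _).trans hmm
  -- exponential forms
  have hA2 : A ^ 2 ≤ Real.exp (2 * κ * P) := by
    have h := pow_le_pow_left₀ hA0 hA 2
    rw [← Real.exp_nat_mul] at h
    refine h.trans (le_of_eq ?_)
    congr 1
    push_cast
    ring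
  have hR : (P ^ (g1 / 2))⁻¹ ^ m0 ≤ Real.exp (-(g1 / 2 * (θ * P) - g1 / 2 * Real.log P)) := by
    have e1 : (P ^ (g1 / 2))⁻¹ = Real.exp (-(g1 / 2 * Real.log P)) := by
      rw [Real.exp_neg, Real.rpow_def_of_pos hPp, mul_comm]
    rw [e1, ← Real.exp_nat_mul, Real.exp_le_exp]
    have e2 : θ * P ≤ (m0 + 1) * Real.log P := (div_le_iff₀ hlog).1 hm
    have e3 := mul_le_mul_of_nonneg_left e2 (show 0 ≤ g1 / 2 by positivity)
    have e4 : (m0 : ℝ) * -(g1 / 2 * Real.log P) = -(g1 / 2 * ((m0 + 1) * Real.log P)) +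
        g1 / 2 * Real.log P := by ring
    rw [e4]
    linarith
  have hX : Real.exp (P ^ (g1 / 2) * S) ≤ Real.exp (ε * P) := by
    rw [Real.exp_le_exp]
    have e1 := mul_le_mul_of_nonneg_left hS (show 0 ≤ P ^ (g1 / 2) by positivity)
    refine e1.trans ?_
    rw [← Real.rpow_add hPp]
    have e2 : g1 / 2 + (1 - g1) = 1 - g1 / 2 := by ring
    rw [e2]
    exact h2
  have hX2 : Real.exp S ≤ Real.exp (ε * P) := Real.exp_le_exp.2 (hS.trans h3)
  have hKe : K ≤ Real.exp (ε * P) := by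
    calc K = Real.exp (Real.log K) := (Real.exp_log hK0).symm
      _ ≤ _ := Real.exp_le_exp.2 h5
  have t1 : K * (A ^ 2 * ((P ^ (g1 / 2))⁻¹ ^ m0 * Real.exp (P ^ (g1 / 2) * S))) ≤
      Real.exp (-(κ2 * P)) := by
    have hp : 0 ≤ (P ^ (g1 / 2))⁻¹ ^ m0 := by positivity
    calc K * (A ^ 2 * ((P ^ (g1 / 2))⁻¹ ^ m0 * Real.exp (P ^ (g1 / 2) * S)))
        ≤ Real.exp (ε * P) * (Real.exp (2 * κ * P) *
          (Real.exp (-(g1 / 2 * (θ * P) - g1 / 2 * Real.log P)) * Real.exp (ε * P))) := by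
          gcongr
      _ = Real.exp (ε * P + (2 * κ * P +
          (-(g1 / 2 * (θ * P) - g1 / 2 * Real.log P) + ε * P))) := by
          rw [Real.exp_add, Real.exp_add, Real.exp_add]
      _ ≤ _ := by
          rw [Real.exp_le_exp]
          have e1 := mul_le_mul_of_nonneg_right hε1 hPp.le
          linarith
  have t2 : K * (A ^ 2 * (δ * Real.exp S)) ≤ Real.exp (-(κ2 * P)) := by
    calc K * (A ^ 2 * (δ * Real.exp S))
        ≤ Real.exp (ε * P) * (Real.exp (2 * κ * P) *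
          (Real.exp (-(cδ * P)) * Real.exp (ε * P))) := by gcongr
      _ = Real.exp (ε * P + (2 * κ * P + (-(cδ * P) + ε * P))) := by
          rw [Real.exp_add, Real.exp_add, Real.exp_add]
      _ ≤ _ := by
          rw [Real.exp_le_exp]
          have e1 := mul_le_mul_of_nonneg_right hε2 hPp.le
          have e2 : 0 ≤ ε * P := by positivity
          linarith
  have hbr : 0 ≤ A ^ 2 * ((P ^ (g1 / 2))⁻¹ ^ m0 * Real.exp (P ^ (g1 / 2) * S) +
      δ * Real.exp S) := by positivity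
  calc 4 * N' ^ 2 * A ^ 2 * ((P ^ (g1 / 2))⁻¹ ^ m0 * Real.exp (P ^ (g1 / 2) * S) +
        δ * Real.exp S)
      = 4 * N' ^ 2 * (A ^ 2 * ((P ^ (g1 / 2))⁻¹ ^ m0 * Real.exp (P ^ (g1 / 2) * S) +
        δ * Real.exp S)) := by ring
    _ ≤ 4 * ((C2 / c0) ^ 2 * mm) * (A ^ 2 * ((P ^ (g1 / 2))⁻¹ ^ m0 *
        Real.exp (P ^ (g1 / 2) * S) + δ * Real.exp S)) :=
        mul_le_mul_of_nonneg_right (mul_le_mul_of_nonneg_left hN (by norm_num)) hbr
    _ = (K * (A ^ 2 * ((P ^ (g1 / 2))⁻¹ ^ m0 * Real.exp (P ^ (g1 / 2) * S))) +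
        K * (A ^ 2 * (δ * Real.exp S))) / 2 * mm := by
        rw [hK]
        ring
    _ ≤ (Real.exp (-(κ2 * P)) + Real.exp (-(κ2 * P))) / 2 * mm := by gcongr
    _ = _ := by ring

/-- total rate of the primes up to `P ^ (2 - g)` -/
theorem sum_rateF {ι : Type*} [Fintype ι] (prm : ι → ℕ) (hinj : Function.Injective prm)
    (hpos : ∀ i, 1 ≤ prm i) (P g K : ℝ) (hP : 0 < P) (hK : 0 ≤ K)
    (hle : ∀ i, (prm i : ℝ) ≤ P ^ (2 - g)) :
    ∑ i, K / Real.sqrt (prm i) ≤ 2 * K * P ^ (1 - g / 2) := by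
  have h1 : (P ^ (1 - g / 2)) ^ 2 = P ^ (2 - g) := by
    rw [← Real.rpow_natCast (P ^ (1 - g / 2)) 2, ← Real.rpow_mul hP.le]
    congr 1
    push_cast
    ring
  have h2 := sum_sqrt_le prm hinj hpos (P ^ (1 - g / 2)) (by positivity)
    (fun i => by rw [h1]; exact hle i)
  have h3 : ∑ i, K / Real.sqrt (prm i) = K * ∑ i, 1 / Real.sqrt (prm i) := by
    rw [mul_sum]
    exact sum_congr rfl fun i _ => by ring
  rw [h3]
  calc K * ∑ i, 1 / Real.sqrt (prm i) ≤ K * (2 * P ^ (1 - g / 2)) :=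
        mul_le_mul_of_nonneg_left h2 hK
    _ = _ := by ring

/-- size of a product of at most `m0` primes -/
theorem prod_leF {ι : Type*} (prm : ι → ℕ) (P : ℝ) (hP : 1 ≤ P)
    (hle : ∀ i, (prm i : ℝ) ≤ P ^ (2 : ℝ)) (m0 : ℕ) (B : Finset ι) (hB : B.card ≤ m0) :
    ((∏ i ∈ B, prm i : ℕ) : ℝ) ≤ Real.exp (2 * m0 * Real.log P) := by
  have h := prod_le prm (Real.log P) (Real.log_nonneg hP) (fun i => by
    refine (hle i).trans (le_of_eq ?_)
    rw [Real.rpow_def_of_pos (by linarith), mul_comm]) m0 B hB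
  refine h.trans (le_of_eq ?_)
  congr 1
  ring

/-- the product of the three moduli fits below `exp (thQ P)` -/
theorem hQ_numF (thQ C2 : ℝ) (hth : 0 < thQ) :
    ∃ P0 : ℝ, ∀ P : ℝ, P0 ≤ P → ∀ (m0 Y0 M0 qn : ℕ), (m0 : ℝ) ≤ thQ / 16 * P / Real.log P →
      (Y0 : ℝ) ≤ Real.exp (2 * m0 * Real.log P) → (M0 : ℝ) ≤ Real.exp (thQ * P / 2) →
      (qn : ℝ) ≤ C2 → Y0 * M0 * qn ≤ ⌊Real.exp (thQ * P)⌋₊ := by
  have key : ∀ᶠ P : ℝ in Filter.atTop, 3 ≤ P ∧ Real.log (max C2 1) ≤ thQ / 4 * P := by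
    filter_upwards [Filter.eventually_ge_atTop 3,
      ev_const_le (Real.log (max C2 1)) (thQ / 4) (by positivity)] with P h1 h2
    exact ⟨h1, h2⟩
  obtain ⟨P0, hP0⟩ := Filter.eventually_atTop.1 key
  refine ⟨P0, fun P hP m0 Y0 M0 qn hm hY hM hq => ?_⟩
  obtain ⟨h1, h2⟩ := hP0 P hP
  have hPp : 0 < P := by linarith
  have hlog : 0 < Real.log P := Real.log_pos (by linarith)
  apply Nat.le_floor
  push_cast
  have hY' : (Y0 : ℝ) ≤ Real.exp (thQ / 8 * P) := by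
    refine hY.trans (Real.exp_le_exp.2 ?_)
    have e1 := mul_le_mul_of_nonneg_right hm hlog.le
    rw [div_mul_cancel₀ _ hlog.ne'] at e1
    linarith
  have hq' : (qn : ℝ) ≤ Real.exp (thQ / 4 * P) := by
    refine (hq.trans (le_max_left C2 1)).trans ?_
    calc max C2 1 = Real.exp (Real.log (max C2 1)) :=
          (Real.exp_log (lt_of_lt_of_le one_pos (le_max_right _ _))).symm
      _ ≤ _ := Real.exp_le_exp.2 h2
  calc (Y0 : ℝ) * M0 * qn
      ≤ Real.exp (thQ / 8 * P) * Real.exp (thQ * P / 2) * Real.exp (thQ / 4 * P) := by gcongr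
    _ = Real.exp (thQ / 8 * P + thQ * P / 2 + thQ / 4 * P) := by
        rw [Real.exp_add, Real.exp_add]
    _ ≤ _ := by
        rw [Real.exp_le_exp]
        have : 0 < thQ * P := by positivity
        linarith

/-- the weight of the moduli beyond `M0` -/
theorem deltaF (c X : ℝ) (hc : 0 ≤ c) (m : ℕ) (hm : ⌊Real.exp X⌋₊ < m) :
    (m : ℝ) ^ (-c) ≤ Real.exp (-(c * X)) := by
  have h1 : Real.exp X ≤ m := (Nat.lt_of_floor_lt hm).le
  have h0 : 0 < Real.exp X := Real.exp_pos X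
  calc (m : ℝ) ^ (-c) ≤ (Real.exp X) ^ (-c) :=
        Real.rpow_le_rpow_of_nonpos h0 h1 (by linarith)
    _ = Real.exp (-(c * X)) := by
        rw [← Real.exp_mul]
        congr 1
        ring

end Vale.Agent.P042.H944
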