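import Vale.Agent.P042.H74.SeamG

set_option autoImplicit false

/-!
P042: the rates of the seam, with the rates at all prime powers outside the tiny primes.
-/

namespace Vale.Agent.P042.H944

open Polynomial Finset Vale.Agent.P042.SS Vale.Agent.P042.H74

/-- **the rates of the seam**: one rate function for all moduli; at moduli without tiny primes
the product of the rates is a negative power of the modulus; with the rates at the prime
powers -/
theorem seamG2 (k R : ℕ) (hk : 2 ≤ k) (hR : 1 ≤ R) :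
    ∃ (c : ℝ) (K0 : ℕ) (kap : ℕ → ℕ → ℝ), 0 < c ∧ c ≤ 1 / 4 ∧ 2 * k ≤ K0 ∧ R ≤ K0 ∧
      (∀ p j, 0 ≤ kap p j) ∧ (∀ p j, kap p j ≤ 1) ∧
      ∀ (f : ℤ[X]), f.natDegree = k → 0 < f.leadingCoeff →
      (∀ g : ℤ, (∀ j : ℕ, 1 ≤ j → g ∣ f.coeff j) → g ∣ (R : ℤ)) →
      ∀ (T PP : Finset ℕ) (q1 : ℕ) (z0 : ℤ), (∀ p : ℕ, p.Prime → p ∣ q1 → p ∈ T) →
        (∀ p : ℕ, p.Prime → p ≤ K0 → p ∈ T) → (∀ p ∈ PP, p.Prime ∧ p ∉ T) →
        NS (fer f q1 z0) PP ∧
        (∀ p : ℕ, p.Prime → p ∉ T → k < p ∧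
          (∃ j : ℕ, 1 ≤ j ∧ ¬ (p : ℤ) ∣ f.coeff j) ∧
          ∃ j : ℕ, 1 ≤ j ∧ ¬ (p : ℤ) ∣ (fer f q1 z0).coeff j) ∧
        (∀ (q : ℕ) (a : ℤ), 1 ≤ q → IsCoprime a (q : ℤ) →
          ‖GamN (fer f q1 z0) PP a q‖ ≤ kapProd (kwS k T PP kap) q) ∧
        (∀ m : ℕ, 1 ≤ m → (∀ p ∈ T, ¬ p ∣ m) →
          kapProd (kwS k T PP kap) m ≤ (m : ℝ) ^ (-c)) ∧
        (∀ p : ℕ, p.Prime → p ∉ T → kwS k T PP kap p 1 ≤ 4 * k / Real.sqrt p) ∧
        (∀ p : ℕ, p.Prime → p ∉ T → ∀ j : ℕ, 2 ≤ j → kwS k T PP kap p j ≤ k / p) ∧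
        (∀ p : ℕ, p.Prime → p ∉ T → ∀ j : ℕ, 1 ≤ j →
          kwS k T PP kap p j ≤ (p : ℝ) ^ (-(c * j))) ∧
        (∀ p : ℕ, p.Prime → p ∉ T → ∀ j : ℕ, 1 ≤ j →
          kwS k T PP kap p j ≤ 4 * k / Real.sqrt p) := by
  classical
  obtain ⟨E, hE, hcomp⟩ := complete_sums k (by omega)
  obtain ⟨K, p0, kap, hK1, hkap0, hkap1, hpw, hone, htwo, hsum⟩ := hcomp R hR
  set K0 : ℕ := (4 * k) ^ 4 + K ^ (2 * E) + p0 + R + 2 * k with hK0
  have hE0 : (0 : ℝ) < E := by exact_mod_cast hE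
  set c : ℝ := min (1 / 4) (1 / (2 * E)) with hc
  have hc0 : 0 < c := by
    rw [hc]
    exact lt_min (by norm_num) (by positivity)
  have hc4 : c ≤ 1 / 4 := min_le_left _ _
  have hcE : c ≤ 1 / (2 * E) := min_le_right _ _
  refine ⟨c, K0, kap, hc0, hc4, by omega, by omega, hkap0, hkap1, ?_⟩
  intro f hfk hfl hfR T PP q1 z0 hq1T hT hPP
  -- the primes outside `T`
  have hnT : ∀ p : ℕ, p.Prime → p ∉ T → K0 < p := by
    intro p hp hpT
    by_contra hcon
    exact hpT (hT p hp (by omega))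
  have hnc : ∀ p : ℕ, p.Prime → p ∉ T → ∃ j : ℕ, 1 ≤ j ∧ ¬ (p : ℤ) ∣ f.coeff j := by
    intro p hp hpT
    by_contra hcon
    push Not at hcon
    have h1 := hfR (p : ℤ) (fun j hj => hcon j hj)
    have h2 : p ∣ R := by exact_mod_cast h1
    have h3 := Nat.le_of_dvd (by omega) h2
    have h4 := hnT p hp hpT
    omega
  have hq1 : ∀ p : ℕ, p.Prime → p ∉ T → ¬ p ∣ q1 := fun p hp hpT hd => hpT (hq1T p hp hd)
  have hNS : NS (fer f q1 z0) PP := by
    apply NS_fer f q1 z0 PP (by omega)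
    intro p hp
    obtain ⟨h1, h2⟩ := hPP p hp
    have h3 := hnT p h1 h2
    exact ⟨h1, by omega, hq1 p h1 h2, hnc p h1 h2⟩
  have hGam : ∀ (q : ℕ) (a : ℤ), 1 ≤ q → IsCoprime a (q : ℤ) → ‖Gam f a q‖ ≤ kapProd kap q := by
    intro q a hq ha
    have h1 := hsum f hfk hfl hfR q a hq ha
    have hq0 : (0 : ℝ) < q := by exact_mod_cast hq
    unfold Gam kapProd
    rw [norm_div, Complex.norm_natCast, div_le_iff₀ hq0]
    exact h1
  have hGam1 := Gam_fer_norm f T q1 z0 hq1T kap hkap0 hGam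
  have hpow : ∀ p : ℕ, p.Prime → p ∉ T → ∀ j : ℕ, 1 ≤ j →
      kwS k T PP kap p j ≤ (p : ℝ) ^ (-(j * c)) := by
    intro p hp hpT j hj
    have h3 := hnT p hp hpT
    have hp0 : (0 : ℝ) < p := by exact_mod_cast hp.pos
    have hp1 : (1 : ℝ) ≤ p := by exact_mod_cast hp.one_lt.le
    have hj1 : (1 : ℝ) ≤ j := by exact_mod_cast hj
    unfold kwS kapW
    beta_reduce
    split_ifs with h4 h5
    · rw [h5]
      have h6 : (4 * k : ℝ) ≤ (p : ℝ) ^ (1 / 4 : ℝ) := by
        have h7 : ((4 * k : ℕ) : ℝ) ^ 4 ≤ p := by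
          have : (4 * k) ^ 4 ≤ p := by omega
          exact_mod_cast this
        calc (4 * k : ℝ) = (((4 * k : ℕ) : ℝ) ^ 4) ^ (1 / 4 : ℝ) := by
              rw [← Real.rpow_natCast, ← Real.rpow_mul (by positivity)]
              push_cast
              norm_num
          _ ≤ (p : ℝ) ^ (1 / 4 : ℝ) := Real.rpow_le_rpow (by positivity) h7 (by norm_num)
      rw [Real.sqrt_eq_rpow, div_le_iff₀ (by positivity), ← Real.rpow_add hp0]
      refine h6.trans (Real.rpow_le_rpow_of_exponent_le hp1 ?_)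
      push_cast
      linarith
    · positivity
    · refine (hpw p j hp hj).trans ?_
      have h6 : (K : ℝ) ≤ (p : ℝ) ^ (1 / (2 * E) : ℝ) := by
        have h7 : (K : ℝ) ^ (2 * E) ≤ p := by
          have : K ^ (2 * E) ≤ p := by omega
          exact_mod_cast this
        calc (K : ℝ) = ((K : ℝ) ^ (2 * E)) ^ (1 / (2 * E) : ℝ) := by
              rw [← Real.rpow_natCast, ← Real.rpow_mul (by positivity)]
              push_cast
              rw [mul_one_div_cancel (by positivity), Real.rpow_one]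
          _ ≤ (p : ℝ) ^ (1 / (2 * E) : ℝ) := Real.rpow_le_rpow (by positivity) h7 (by positivity)
      calc (K : ℝ) * (p : ℝ) ^ (-(j : ℝ) / E) ≤ (p : ℝ) ^ (1 / (2 * E) : ℝ) * (p : ℝ) ^ (-(j : ℝ) / E) :=
            mul_le_mul_of_nonneg_right h6 (by positivity)
        _ = (p : ℝ) ^ (1 / (2 * E) + -(j : ℝ) / E : ℝ) := by rw [← Real.rpow_add hp0]
        _ ≤ (p : ℝ) ^ (-(j * c)) := by
            apply Real.rpow_le_rpow_of_exponent_le hp1
            have h8 : (j : ℝ) * c ≤ j * (1 / (2 * E)) := mul_le_mul_of_nonneg_left hcE (by linarith)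
            have h9 : -(j : ℝ) / E = -(2 * (j * (1 / (2 * E)))) := by
              field_simp
            rw [h9]
            have h10 : 1 / (2 * (E : ℝ)) ≤ j * (1 / (2 * E)) := by
              have : (0 : ℝ) ≤ 1 / (2 * E) := by positivity
              nlinarith
            linarith
  have hOne : ∀ p : ℕ, p.Prime → p ∉ T → kwS k T PP kap p 1 ≤ 4 * k / Real.sqrt p := by
    intro p hp hpT
    unfold kwS kapW
    beta_reduce
    by_cases h4 : p ∈ PP
    · rw [if_pos h4, if_pos rfl]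
    · rw [if_neg h4, if_neg hpT]
      have hp0 : (0 : ℝ) < p := by exact_mod_cast hp.pos
      have h3 := hnT p hp hpT
      refine (hone p hp (by omega)).trans ?_
      gcongr
      linarith [(Nat.cast_nonneg k : (0 : ℝ) ≤ k)]
  have hTwo : ∀ p : ℕ, p.Prime → p ∉ T → ∀ j : ℕ, 2 ≤ j → kwS k T PP kap p j ≤ k / p := by
    intro p hp hpT j hj
    unfold kwS kapW
    beta_reduce
    by_cases h4 : p ∈ PP
    · rw [if_pos h4, if_neg (by omega)]
      positivity
    · rw [if_neg h4, if_neg hpT]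
      have h3 := hnT p hp hpT
      exact htwo p j hp (by omega) hj
  refine ⟨hNS, fun p hp hpT => ⟨?_, hnc p hp hpT, nonconst_fer f hp (hq1 p hp hpT) z0 (hnc p hp hpT)⟩,
    ?_, ?_, hOne, hTwo, ?_, ?_⟩
  · have := hnT p hp hpT
    omega
  · unfold kwS
    refine GamN_norm (fer f q1 z0) PP hNS _ _ (fun p => by positivity) (fun p j => ?_) ?_ hGam1
    · split_ifs
      · exact zero_le_one
      · exact hkap0 p j
    · intro p hp a ha
      obtain ⟨h1, h2⟩ := hPP p hp
      have h3 := hnT p h1 h2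
      have hp0 : (0 : ℝ) < p := by exact_mod_cast h1.pos
      have hs0 : 0 < Real.sqrt p := Real.sqrt_pos.2 hp0
      have hkp : (2 * k : ℝ) ≤ p := by
        have : 2 * k ≤ p := by omega
        exact_mod_cast this
      have h4 : ‖Gam (fer f q1 z0) a p‖ ≤ k / Real.sqrt p := by
        refine (hGam1 p a h1.one_lt.le ha).trans ?_
        unfold kapProd
        rw [h1.primeFactors, prod_singleton, h1.factorization_self]
        beta_reduce
        rw [if_neg h2]
        exact hone p h1 (by omega)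
      have h5 : 1 - dns (fer f q1 z0) p ≤ k / p := by
        rw [dns_fer f h1 (hq1 p h1 h2)]
        have h6 := dns_ge f p h1 (by omega) (by omega) (hnc p h1 h2)
        rw [hfk] at h6
        have h7 : ((k : ℝ) - 1) / p ≤ k / p := by gcongr; linarith
        linarith
      have h6 : (k : ℝ) / p ≤ 1 / 2 := by
        rw [div_le_iff₀ hp0]
        linarith
      refine (GamN_prime_norm (fer f q1 z0) PP hNS p hp _ _ a h4 h5 h6).trans ?_
      have h7 : (k : ℝ) / p ≤ k / Real.sqrt p := by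
        apply div_le_div_of_nonneg_left (Nat.cast_nonneg k) hs0
        have h1p : (1 : ℝ) ≤ p := by exact_mod_cast h1.one_lt.le
        exact Real.sqrt_le_iff.2 ⟨hp0.le, by nlinarith⟩
      have h8 : 4 * (k : ℝ) / Real.sqrt p = 2 * (k / Real.sqrt p + k / Real.sqrt p) := by ring
      rw [h8]
      linarith
  · intro m hm hmT
    refine kapProd_le_rpow _ c m hm (fun p j => kwS_nonneg k T PP hkap0 p j) ?_
    intro p j hp hpm hj
    have hpT : p ∉ T := fun h => hmT p h hpm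
    have hp0 : (0 : ℝ) < p := by exact_mod_cast hp.pos
    have hp1 : (1 : ℝ) ≤ p := by exact_mod_cast hp.one_lt.le
    have hj1 : (1 : ℝ) ≤ j := by exact_mod_cast hj
    have hpj : ((p : ℝ) ^ j) ^ (-c) = (p : ℝ) ^ (-(j * c)) := by
      rw [← Real.rpow_natCast, ← Real.rpow_mul hp0.le]
      congr 1
      ring
    rw [hpj]
    exact hpow p hp hpT j hj
  · intro p hp hpT j hj
    rw [mul_comm c]
    exact hpow p hp hpT j hj
  · intro p hp hpT j hj
    rcases Nat.lt_or_ge j 2 with h2 | h2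
    · obtain rfl : j = 1 := by omega
      exact hOne p hp hpT
    · refine (hTwo p hp hpT j h2).trans ?_
      have hp0 : (0 : ℝ) < p := by exact_mod_cast hp.pos
      have hp1 : (1 : ℝ) ≤ p := by exact_mod_cast hp.one_lt.le
      have hs0 : 0 < Real.sqrt p := Real.sqrt_pos.2 hp0
      have hs1 : Real.sqrt p ≤ p := Real.sqrt_le_iff.2 ⟨hp0.le, by nlinarith⟩
      have hk0 : (0 : ℝ) ≤ k := Nat.cast_nonneg k
      calc (k : ℝ) / p ≤ k / Real.sqrt p := div_le_div_of_nonneg_left hk0 hs0 hs1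
        _ ≤ 4 * k / Real.sqrt p := by
            apply div_le_div_of_nonneg_right _ hs0.le
            linarith

end Vale.Agent.P042.H944
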